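import Mathlib

/-!
Weighted families of sets: the functions used to turn a fractional cover into an integral one.
-/

namespace Vale.Agent.P034

open Finset

set_option linter.unusedSectionVars false

variable {X : Type*} [Fintype X] [DecidableEq X]

/-- weight inside `U` -/
noncomputable def tot (lam : Finset X → ℝ) (U : Finset X) : ℝ := ∑ S ∈ U.powerset, lam S

/-- weight inside `V` and a random set of density `x` -/
noncomputable def psi (x : ℝ) (lam : Finset X → ℝ) (V : Finset X) : ℝ :=
  ∑ S, lam S * x ^ (S \ V).card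

/-- cost of a weighted family -/
noncomputable def mu (z : ℝ) (lam : Finset X → ℝ) : ℝ := ∑ S, lam S * z ^ S.card

/-- cost of a family -/
noncomputable def cost (x : ℝ) (G : Finset (Finset X)) : ℝ := ∑ S ∈ G, x ^ S.card

/-- normalised degree -/
noncomputable def dg (x : ℝ) (lam : Finset X → ℝ) (I : Finset X) : ℝ :=
  ∑ S, if I ⊆ S then lam S * x ^ (S.card - I.card) else 0

/-- the derived weights -/
noncomputable def gg (x : ℝ) (lam : Finset X → ℝ) (I : Finset X) : ℝ :=
  (1 - x) ^ I.card * dg x lam I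

/-- the weights are nonnegative and live on sets of size at most `t` -/
structure Small (t : ℕ) (lam : Finset X → ℝ) : Prop where
  nonneg : ∀ S, 0 ≤ lam S
  size : ∀ S, lam S ≠ 0 → S.card ≤ t

variable {x : ℝ} {t : ℕ} {lam : Finset X → ℝ}

omit [DecidableEq X] in
theorem cost_nonneg (hx : 0 ≤ x) (G : Finset (Finset X)) : 0 ≤ cost x G :=
  sum_nonneg fun _ _ => pow_nonneg hx _

theorem cost_union_le (hx : 0 ≤ x) (G G' : Finset (Finset X)) :
    cost x (G ∪ G') ≤ cost x G + cost x G' := by
  have h := sum_union_inter (s₁ := G) (s₂ := G') (f := fun S : Finset X => x ^ S.card)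
  have h' := cost_nonneg hx (G ∩ G')
  unfold cost at *
  linarith

theorem dg_nonneg (hx : 0 ≤ x) (hl : Small t lam) (I : Finset X) : 0 ≤ dg x lam I :=
  sum_nonneg fun S _ => by
    have := hl.nonneg S
    split <;> positivity

theorem gg_small (hx : 0 ≤ x) (hx1 : x ≤ 1) (hl : Small t lam) : Small t (gg x lam) := by
  refine ⟨fun I => mul_nonneg (pow_nonneg (by linarith) _) (dg_nonneg hx hl I), fun I hI => ?_⟩
  obtain ⟨S, -, hS⟩ := exists_ne_zero_of_sum_ne_zero (right_ne_zero_of_mul hI)
  by_cases h : I ⊆ S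
  · rw [if_pos h] at hS
    exact (card_le_card h).trans (hl.size S (left_ne_zero_of_mul hS))
  · rw [if_neg h] at hS
    exact absurd rfl hS

theorem tot_gg (U : Finset X) : tot (gg x lam) U = psi x lam U := by
  unfold tot psi gg dg
  simp only [mul_sum]
  rw [sum_comm]
  refine sum_congr rfl fun S _ => ?_
  simp only [mul_ite, mul_zero]
  rw [← sum_filter]
  have hset : U.powerset.filter (· ⊆ S) = (S ∩ U).powerset := by
    ext I; simp only [mem_filter, mem_powerset, subset_inter_iff]; tauto
  rw [hset]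
  have hcard : S.card = (S \ U).card + (S ∩ U).card := (card_sdiff_add_card_inter S U).symm
  calc ∑ I ∈ (S ∩ U).powerset, (1 - x) ^ I.card * (lam S * x ^ (S.card - I.card))
      = lam S * x ^ (S \ U).card *
          ∑ I ∈ (S ∩ U).powerset, (1 - x) ^ I.card * x ^ ((S ∩ U).card - I.card) := by
        rw [mul_sum]
        refine sum_congr rfl fun I hI => ?_
        have := card_le_card (mem_powerset.1 hI)
        rw [show S.card - I.card = (S \ U).card + ((S ∩ U).card - I.card) by omega, pow_add]
        ring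
    _ = _ := by rw [sum_pow_mul_eq_add_pow]; simp

theorem mu_mono {z z' : ℝ} (hz : 0 ≤ z) (h : z ≤ z') (hl : Small t lam) :
    mu z lam ≤ mu z' lam :=
  sum_le_sum fun S _ => mul_le_mul_of_nonneg_left (pow_le_pow_left₀ hz h _) (hl.nonneg S)

theorem mu_gg {z : ℝ} (hz : 0 ≤ z) (hx : 0 ≤ x) (hx1 : x ≤ 1) (hl : Small t lam) :
    mu z (gg x lam) ≤ mu (x + z) lam := by
  unfold mu gg dg
  simp only [mul_sum, sum_mul]
  rw [sum_comm]
  refine sum_le_sum fun S _ => ?_
  simp only [mul_ite, ite_mul, mul_zero, zero_mul]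
  rw [← sum_filter, show univ.filter (· ⊆ S) = S.powerset by ext; simp]
  calc ∑ I ∈ S.powerset, (1 - x) ^ I.card * (lam S * x ^ (S.card - I.card)) * z ^ I.card
      = lam S * ((1 - x) * z + x) ^ S.card := by
        rw [← sum_pow_mul_eq_add_pow, mul_sum]
        exact sum_congr rfl fun I _ => by rw [mul_pow]; ring
    _ ≤ _ := mul_le_mul_of_nonneg_left
        (pow_le_pow_left₀ (by nlinarith) (by nlinarith) _) (hl.nonneg S)

theorem sum_dg : ∑ I, dg x lam I * x ^ I.card = mu (2 * x) lam := by
  unfold mu dg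
  simp only [sum_mul]
  rw [sum_comm]
  refine sum_congr rfl fun S _ => ?_
  simp only [ite_mul, zero_mul]
  rw [← sum_filter, show univ.filter (· ⊆ S) = S.powerset by ext; simp]
  rw [sum_congr rfl fun I hI => by
    rw [mul_assoc, ← pow_add, Nat.sub_add_cancel (card_le_card (mem_powerset.1 hI))],
    sum_const, card_powerset, nsmul_eq_mul, mul_pow]
  push_cast
  ring

omit [Fintype X] in
theorem card_small_subsets (V : Finset X) (t : ℕ) :
    (V.powerset.filter fun I => I.card ≤ t).card ≤ (V.card + 1) ^ t := by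
  induction t with
  | zero =>
    rw [pow_zero]
    exact card_le_one.2 fun a ha b hb => by simp_all
  | succ t ih =>
    set P := V.powerset.filter fun I => I.card ≤ t
    have hsub : (V.powerset.filter fun I => I.card ≤ t + 1) ⊆
        P ∪ (P ×ˢ V).image fun q => insert q.2 q.1 := by
      intro I hI
      simp only [mem_filter, mem_powerset] at hI
      rcases I.eq_empty_or_nonempty with rfl | ⟨a, ha⟩
      · exact mem_union_left _ (by simp [P])
      · refine mem_union_right _ (mem_image.2 ⟨(I.erase a, a), ?_, insert_erase ha⟩)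
        refine mem_product.2 ⟨mem_filter.2 ⟨mem_powerset.2 ((erase_subset _ _).trans hI.1), ?_⟩,
          hI.1 ha⟩
        rw [card_erase_of_mem ha]
        omega
    refine (card_le_card hsub).trans ((card_union_le _ _).trans ?_)
    refine (Nat.add_le_add_left card_image_le _).trans ?_
    rw [card_product, pow_succ]
    calc P.card + P.card * V.card = P.card * (V.card + 1) := by ring
      _ ≤ _ := Nat.mul_le_mul_right _ ih

theorem psi_le_card (hx : 0 ≤ x) (hl : Small t lam) {d : ℝ} {V : Finset X}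
    (hd : ∀ I ⊆ V, dg x lam I ≤ d) :
    psi x lam V ≤ (V.powerset.filter fun I => I.card ≤ t).card * d := by
  set P := V.powerset.filter fun I => I.card ≤ t
  calc psi x lam V ≤ ∑ S, ∑ I ∈ P, if I ⊆ S then lam S * x ^ (S.card - I.card) else 0 := by
        refine sum_le_sum fun S _ => ?_
        have hnn : ∀ I : Finset X, 0 ≤ if I ⊆ S then lam S * x ^ (S.card - I.card) else 0 := by
          intro I
          have := hl.nonneg S
          split <;> positivity
        rcases eq_or_ne (lam S) 0 with h0 | h0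
        · rw [h0, zero_mul]
          exact sum_nonneg fun I _ => by simp
        · have hmem : S ∩ V ∈ P := mem_filter.2 ⟨mem_powerset.2 inter_subset_right,
            (card_le_card inter_subset_left).trans (hl.size S h0)⟩
          refine le_trans (le_of_eq ?_) (single_le_sum (fun I _ => hnn I) hmem)
          rw [if_pos inter_subset_left]
          congr 2
          have := card_sdiff_add_card_inter S V
          omega
    _ = ∑ I ∈ P, dg x lam I := by rw [sum_comm]; rfl
    _ ≤ ∑ _I ∈ P, d := sum_le_sum fun I hI => hd I (mem_powerset.1 (mem_filter.1 hI).1)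
    _ = _ := by rw [sum_const, nsmul_eq_mul]

/-- repeated random sampling, made deterministic by averaging -/
theorem exists_cover {w : Finset X → ℝ} (hw : ∀ A, 0 ≤ w A) {a : ℝ}
    (ha : a ≤ ∑ A, w A) (hW : 0 < ∑ A, w A) (hx : 0 ≤ x) (n : ℕ) :
    ∀ 𝒰 : Finset (Finset X), (∀ U ∈ 𝒰, a ≤ tot w U) →
      ∃ G : Finset (Finset X), (∀ U ∈ 𝒰, ∃ A ∈ G, A ⊆ U) ∧
        cost x G ≤ n * (mu x w / ∑ A, w A) + (1 - a / ∑ A, w A) ^ n * cost x 𝒰 := by
  induction n with
  | zero => exact fun 𝒰 _ => ⟨𝒰, fun U hU => ⟨U, hU, Subset.rfl⟩, by simp⟩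
  | succ n ih =>
    intro 𝒰 h𝒰
    set W := ∑ A, w A with hWdef
    set C := mu x w with hCdef
    set r := 1 - a / W with hr
    have hr0 : 0 ≤ r := by rw [hr, sub_nonneg, div_le_one hW]; exact ha
    set rest : Finset X → Finset (Finset X) := fun A => 𝒰.filter fun U => ¬A ⊆ U with hrest
    have key : ∃ A, x ^ A.card + r ^ n * cost x (rest A) ≤ C / W + r ^ (n + 1) * cost x 𝒰 := by
      by_contra hno
      push Not at hno
      have h1 : ∑ A, w A * (C / W + r ^ (n + 1) * cost x 𝒰) <
          ∑ A, w A * (x ^ A.card + r ^ n * cost x (rest A)) := by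
        obtain ⟨A, -, hA⟩ : ∃ A ∈ (univ : Finset (Finset X)), (0 : ℝ) < w A :=
          exists_lt_of_sum_lt (f := fun _ => (0 : ℝ)) (by simpa using hW)
        exact sum_lt_sum (fun B _ => mul_le_mul_of_nonneg_left (hno B).le (hw B))
          ⟨A, mem_univ _, mul_lt_mul_of_pos_left (hno A) hA⟩
      have h2 : ∑ A, w A * cost x (rest A) ≤ (W - a) * cost x 𝒰 := by
        have e : ∀ A, w A * cost x (rest A) =
            ∑ U ∈ 𝒰, (if A ⊆ U then 0 else w A) * x ^ U.card := by
          intro A
          simp only [hrest, cost, sum_filter, mul_sum]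
          exact sum_congr rfl fun U _ => by by_cases h : A ⊆ U <;> simp [h]
        simp only [e]
        rw [sum_comm, cost, mul_sum]
        refine sum_le_sum fun U hU => ?_
        rw [← sum_mul]
        refine mul_le_mul_of_nonneg_right ?_ (pow_nonneg hx _)
        have e2 : ∑ A, (if A ⊆ U then 0 else w A) + tot w U = W := by
          rw [hWdef, tot, show U.powerset = univ.filter (· ⊆ U) by ext; simp, sum_filter,
            ← sum_add_distrib]
          exact sum_congr rfl fun A _ => by split <;> simp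
        linarith [h𝒰 U hU]
      rw [← sum_mul, ← hWdef] at h1
      simp only [mul_add, sum_add_distrib, mul_left_comm _ (r ^ n), ← mul_sum] at h1
      rw [show ∑ A, w A * x ^ A.card = C from rfl] at h1
      have h3 := mul_le_mul_of_nonneg_left h2 (pow_nonneg hr0 n)
      have e1 : W * (C / W) = C := by field_simp
      have e2 : W * (r ^ (n + 1) * cost x 𝒰) = r ^ n * ((W - a) * cost x 𝒰) := by
        rw [hr, pow_succ]; field_simp
      linarith
    obtain ⟨A, hA⟩ := key
    obtain ⟨G, hG, hGc⟩ := ih (rest A) fun U hU => h𝒰 U (mem_filter.1 hU).1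
    refine ⟨{A} ∪ G, fun U hU => ?_, ?_⟩
    · by_cases h : A ⊆ U
      · exact ⟨A, by simp, h⟩
      · obtain ⟨B, hB, hBU⟩ := hG U (mem_filter.2 ⟨hU, h⟩)
        exact ⟨B, mem_union_right _ hB, hBU⟩
    · refine (cost_union_le hx _ _).trans ?_
      have : cost x {A} = x ^ A.card := by simp [cost]
      push_cast
      linarith

theorem cover_of_weights {w : Finset X → ℝ} (hw : ∀ A, 0 ≤ w A) {a M : ℝ} (ha : 0 < a)
    (hM : 0 ≤ M) (hx : 0 ≤ x) (𝒰 : Finset (Finset X)) (h𝒰 : ∀ U ∈ 𝒰, a ≤ tot w U) :
    ∃ G : Finset (Finset X), (∀ U ∈ 𝒰, ∃ A ∈ G, A ⊆ U) ∧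
      cost x G ≤ (M + 1) / a * mu x w + Real.exp (-M) * cost x 𝒰 := by
  have hC : 0 ≤ mu x w := sum_nonneg fun A _ => mul_nonneg (hw A) (pow_nonneg hx _)
  rcases 𝒰.eq_empty_or_nonempty with rfl | ⟨U, hU⟩
  · exact ⟨∅, by simp, by simp [cost]; positivity⟩
  set W := ∑ A, w A with hWdef
  have haW : a ≤ W := (h𝒰 U hU).trans (sum_le_univ_sum_of_nonneg hw)
  have hW : 0 < W := ha.trans_le haW
  obtain ⟨G, hG, hGc⟩ := exists_cover hw haW hW hx ⌈M * W / a⌉₊ 𝒰 h𝒰
  refine ⟨G, hG, hGc.trans (add_le_add ?_ ?_)⟩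
  · have h1 : (⌈M * W / a⌉₊ : ℝ) ≤ M * W / a + W / a := by
      have := (Nat.ceil_lt_add_one (a := M * W / a) (by positivity)).le
      have : 1 ≤ W / a := (one_le_div ha).2 haW
      linarith
    refine (mul_le_mul_of_nonneg_right h1 (by positivity)).trans (le_of_eq ?_)
    rw [← hWdef]
    field_simp
  · refine mul_le_mul_of_nonneg_right ?_ (cost_nonneg hx _)
    rw [← hWdef]
    calc (1 - a / W) ^ ⌈M * W / a⌉₊ ≤ Real.exp (-(a / W)) ^ ⌈M * W / a⌉₊ :=
          pow_le_pow_left₀ (by rw [sub_nonneg, div_le_one hW]; exact haW)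
            (by linarith [Real.add_one_le_exp (-(a / W))]) _
      _ = Real.exp (⌈M * W / a⌉₊ * -(a / W)) := (Real.exp_nat_mul _ _).symm
      _ ≤ Real.exp (-M) := by
        refine Real.exp_le_exp.2 ?_
        have h := mul_le_mul_of_nonneg_right (Nat.le_ceil (M * W / a)) (div_nonneg ha.le hW.le)
        have e : M * W / a * (a / W) = M := by field_simp
        linarith

end Vale.Agent.P034
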