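import Vale.Agent.P034.Num

/-!
Selecting a class inside a set of large weight, and covering all sets of large weight at one size.
-/

namespace Vale.Agent.P034

open Finset

set_option linter.unusedSectionVars false

variable {X : Type*} [Fintype X] [DecidableEq X]
variable {x : ℝ} {t : ℕ} {lam : Finset X → ℝ}

/-- scaled boosted weights on the `k`th class -/
noncomputable def lk (x : ℝ) (t : ℕ) (lam : Finset X → ℝ) (k m : ℕ) (S : Finset X) : ℝ :=
  if Cls x t lam k S then 2 ^ m * gw x t lam S else 0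

theorem lk_small (hx : 0 ≤ x) (hl : Small t lam) (k m : ℕ) : Small t (lk x t lam k m) := by
  refine ⟨fun S => ?_, fun S hS => (gw_small hx hl).size S fun h => hS (by simp [lk, h])⟩
  have := gw_nonneg hx hl S
  unfold lk
  split <;> positivity

theorem mu_scale (hx : 0 ≤ x) {c : ℝ} (hc : 1 ≤ c) (hl : Small t lam) :
    mu (c * x) lam ≤ c ^ t * mu x lam := by
  unfold mu
  rw [mul_sum]
  refine sum_le_sum fun S _ => ?_
  have hnn := hl.nonneg S
  rcases eq_or_ne (lam S) 0 with h0 | h0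
  · simp [h0]
  rw [mul_pow]
  calc lam S * (c ^ S.card * x ^ S.card) = c ^ S.card * (lam S * x ^ S.card) := by ring
    _ ≤ _ := mul_le_mul_of_nonneg_right (pow_le_pow_right₀ hc (hl.size S h0))
        (mul_nonneg hnn (pow_nonneg hx _))

theorem mu_lk_le (hx : 0 ≤ x) (hl : Small t lam) {c : ℝ} (hc : 1 ≤ c) (k m : ℕ) :
    mu (c * x) (lk x t lam k m) ≤ 2 ^ m * (c ^ t * mu x (gw x t lam)) := by
  refine le_trans ?_ (mul_le_mul_of_nonneg_left (mu_scale hx hc (gw_small hx hl)) (by positivity))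
  unfold mu lk
  rw [mul_sum]
  refine sum_le_sum fun S _ => ?_
  have hg := gw_nonneg hx hl S
  have hcx : 0 ≤ c * x := mul_nonneg (by linarith) hx
  split
  · rw [mul_assoc]
  · rw [zero_mul]; positivity

theorem lcore_mono {j : ℕ} {S U : Finset X} (h : S ⊆ U) :
    lcore x t lam j S ⊆ lcore x t lam j U :=
  biUnion_subset.2 fun _ hL =>
    subset_lcore ((mem_powerset.1 (mem_filter.1 hL).1).trans h) (mem_filter.1 hL).2

theorem gw_pos_card (hx : 0 ≤ x) (hl : Small t lam) {k : ℕ} {J : Finset X}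
    (h : Lo x t lam k J) : J.card ≤ t ∧ 1 / (thr t k : ℝ) ≤ gw x t lam J := by
  have h1 := h.2.2.trans (dg_le_gw hx hl J)
  have h2 : (0 : ℝ) < 1 / thr t k := one_div_pos.2 (by exact_mod_cast thr_pos t k)
  exact ⟨(gw_small hx hl).size J fun h0 => by linarith, h1⟩

/-- weight of the low sets inside `H` -/
noncomputable def aw (x : ℝ) (t : ℕ) (lam : Finset X → ℝ) (H : Finset X) (k : ℕ) : ℝ :=
  ∑ J ∈ H.powerset with Lo x t lam k J, gw x t lam J

/-- weight of the `k`th class inside `H` -/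
noncomputable def dw (x : ℝ) (t : ℕ) (lam : Finset X → ℝ) (H : Finset X) (k : ℕ) : ℝ :=
  ∑ J ∈ H.powerset with Cls x t lam k J, gw x t lam J

/-- charge received inside `H` from the `k`th class -/
noncomputable def pw (x : ℝ) (t : ℕ) (lam : Finset X → ℝ) (H : Finset X) (k : ℕ) : ℝ :=
  ∑ J ∈ H.powerset with Lo x t lam (k - 1) J, ∑ I : Finset X,
    if Cls x t lam k I ∧ Vd x t lam I J then gw x t lam I * x ^ (I.card - J.card) else 0

/-- cost of the `k`th class -/
noncomputable def nw (x : ℝ) (t : ℕ) (lam : Finset X → ℝ) (k : ℕ) : ℝ :=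
  ∑ I : Finset X, if Cls x t lam k I then gw x t lam I * x ^ I.card else 0

theorem pw_nonneg (hx : 0 ≤ x) (hl : Small t lam) (H : Finset X) (k : ℕ) :
    0 ≤ pw x t lam H k :=
  sum_nonneg fun J _ => sum_nonneg fun I _ => by
    have := gw_nonneg hx hl I
    split <;> positivity

theorem nw_nonneg (hx : 0 ≤ x) (hl : Small t lam) (k : ℕ) : 0 ≤ nw x t lam k :=
  sum_nonneg fun I _ => by
    have := gw_nonneg hx hl I
    split <;> positivity

theorem aw_eq (H : Finset X) :
    ∀ n, aw x t lam H n = ∑ k ∈ range n, dw x t lam H (k + 1)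
  | 0 => by
    simp only [aw, range_zero, sum_empty]
    exact sum_eq_zero fun J hJ => absurd (mem_filter.1 hJ).2 not_lo_zero
  | n + 1 => by
    rw [sum_range_succ, ← aw_eq H n, aw, aw, dw, sum_filter, sum_filter, sum_filter,
      ← sum_add_distrib]
    refine sum_congr rfl fun J _ => ?_
    by_cases h : Lo x t lam n J
    · rw [if_pos (h.mono (Nat.le_succ n)), if_pos h,
        if_neg fun hc : Cls x t lam (n + 1) J => hc.2 (by simpa using h), add_zero]
    · by_cases h' : Lo x t lam (n + 1) J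
      · rw [if_pos h', if_neg h, if_pos ⟨h', by simpa using h⟩, zero_add]
      · rw [if_neg h', if_neg h, if_neg fun hc : Cls x t lam (n + 1) J => h' hc.1, add_zero]

theorem sum_cls_le {c : ℝ} (hc : 0 ≤ c) (n : ℕ) (I : Finset X) (p : Prop) [Decidable p] :
    (∑ k ∈ range n, if Cls x t lam (k + 1) I ∧ p then c else 0) ≤ if p then c else 0 := by
  by_cases hp : p
  · rw [← sum_filter, sum_const, if_pos hp, nsmul_eq_mul]
    refine mul_le_of_le_one_left hc (Nat.cast_le_one.2 (card_le_one.2 fun a ha b hb => ?_))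
    have := (mem_filter.1 ha).2.1.unique (mem_filter.1 hb).2.1
    omega
  · rw [if_neg hp, sum_eq_zero fun k _ => if_neg fun h => hp h.2]

theorem sum_nw_le (hx : 0 ≤ x) (hl : Small t lam) (n : ℕ) :
    ∑ k ∈ range n, nw x t lam (k + 1) ≤ mu x (gw x t lam) := by
  unfold nw mu
  rw [sum_comm]
  refine sum_le_sum fun I _ => ?_
  have h := sum_cls_le (x := x) (t := t) (lam := lam)
    (mul_nonneg (gw_nonneg hx hl I) (pow_nonneg hx I.card)) n I True
  simp only [and_true, if_true] at h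
  exact h

theorem sum_pw_le (hx : 0 ≤ x) (hl : Small t lam) (H : Finset X) (j : ℕ) :
    32 * ∑ k ∈ range (j + 1), pw x t lam H (k + 1) ≤ aw x t lam H j := by
  set c : Finset X → Finset X → ℝ := fun J I => gw x t lam I * x ^ (I.card - J.card)
  have hc : ∀ J I, 0 ≤ c J I := fun J I => mul_nonneg (gw_nonneg hx hl I) (pow_nonneg hx _)
  have h1 : ∀ k ∈ range (j + 1), pw x t lam H (k + 1) ≤
      ∑ J ∈ H.powerset with Lo x t lam j J, ∑ I : Finset X,
        if Cls x t lam (k + 1) I ∧ Vd x t lam I J then c J I else 0 := by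
    intro k hk
    refine sum_le_sum_of_subset_of_nonneg (fun J hJ => ?_) fun J _ _ => sum_nonneg fun I _ => ?_
    · simp only [mem_filter] at hJ ⊢
      exact ⟨hJ.1, hJ.2.mono (by have := mem_range.1 hk; omega)⟩
    · have := hc J I
      split <;> linarith
  refine (mul_le_mul_of_nonneg_left (sum_le_sum h1) (by norm_num)).trans ?_
  rw [sum_comm, mul_sum]
  refine sum_le_sum fun J _ => ?_
  rw [gw_eq, sum_comm]
  have h2 := sum_le_sum fun I (_ : I ∈ (univ : Finset (Finset X))) =>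
    sum_cls_le (x := x) (t := t) (lam := lam) (hc J I) (j + 1) I (Vd x t lam I J)
  have h3 := dg_nonneg hx hl J
  linarith

theorem choose_class (hx : 0 ≤ x) (hl : Small t lam)
    (hν : mu x (gw x t lam) ≤ 1 / 64) {K : ℕ}
    (hK : ∀ J : Finset X, lam J ≠ 0 → Lo x t lam K J) {H : Finset X} (hH : 2 ≤ tot lam H) :
    ∃ j m : ℕ, j + 1 ≤ K ∧ m ≤ j + 5 ∧ aw x t lam H j < 1 ∧
      1 ≤ (2 : ℝ) ^ m * dw x t lam H (j + 1) ∧
      (2 : ℝ) ^ m * (pw x t lam H (j + 1) + nw x t lam (j + 1)) ≤ 1 / 4 := by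
  classical
  have hK2 : 2 ≤ aw x t lam H K := by
    refine hH.trans ?_
    rw [tot, aw, sum_filter]
    refine sum_le_sum fun J _ => ?_
    rcases eq_or_ne (lam J) 0 with h0 | h0
    · rw [h0]; split
      · exact gw_nonneg hx hl J
      · exact le_rfl
    · rw [if_pos (hK J h0)]
      refine le_trans ?_ (dg_le_gw hx hl J)
      refine le_trans (le_of_eq ?_) (single_le_sum (fun S _ => ?_) (mem_univ J))
      · rw [if_pos Subset.rfl, Nat.sub_self, pow_zero, mul_one]
      · have := hl.nonneg S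
        split <;> positivity
  have hex : ∃ n, 1 ≤ aw x t lam H n := ⟨K, by linarith⟩
  set n := Nat.find hex
  have hn : 1 ≤ aw x t lam H n := Nat.find_spec hex
  have hn0 : n ≠ 0 := fun h => by
    rw [h, aw_eq] at hn
    norm_num at hn
  obtain ⟨l, hl'⟩ := Nat.exists_eq_succ_of_ne_zero hn0
  have hlt : ∀ j ≤ l, aw x t lam H j < 1 := fun j hj =>
    not_le.1 (Nat.find_min hex (show j < n by omega))
  have hnK : n ≤ K := Nat.find_min' hex (by linarith)
  obtain ⟨j, hj, hbig⟩ : ∃ j ∈ range n, 8 * pw x t lam H (j + 1) + 8 * nw x t lam (j + 1) +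
      (1 / 2 : ℝ) ^ (j + 5) ≤ dw x t lam H (j + 1) := by
    by_contra hno
    push Not at hno
    have h1 := sum_le_sum fun k hk => (hno k hk).le
    rw [← aw_eq, sum_add_distrib, sum_add_distrib, ← mul_sum, ← mul_sum] at h1
    have h2 := sum_pw_le hx hl H l
    rw [show l + 1 = n by omega] at h2
    have h3 := (sum_nw_le hx hl n).trans hν
    have h4 := hlt l le_rfl
    have h5 : ∑ k ∈ range n, (1 / 2 : ℝ) ^ (k + 5) ≤ 1 / 16 := by
      have hg : ∀ i : ℕ, ∑ k ∈ range i, (1 / 2 : ℝ) ^ (k + 5) = 1 / 16 - (1 / 2) ^ (i + 4) := by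
        intro i
        induction i with
        | zero => norm_num
        | succ i ih => rw [sum_range_succ, ih]; ring
      rw [hg]
      linarith [pow_pos (show (0 : ℝ) < 1 / 2 by norm_num) (n + 4)]
    linarith
  have hjn := mem_range.1 hj
  have hp0 := pw_nonneg hx hl H (j + 1)
  have hn0' := nw_nonneg hx hl (j + 1)
  have hpow : (0 : ℝ) < (1 / 2) ^ (j + 5) := by positivity
  have hexm : ∃ m, 1 ≤ (2 : ℝ) ^ m * dw x t lam H (j + 1) := ⟨j + 5, by
    have h : (2 : ℝ) ^ (j + 5) * (1 / 2) ^ (j + 5) = 1 := by rw [← mul_pow]; norm_num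
    have := mul_le_mul_of_nonneg_left (show (1 / 2 : ℝ) ^ (j + 5) ≤ dw x t lam H (j + 1) by
      linarith) (show (0 : ℝ) ≤ 2 ^ (j + 5) by positivity)
    linarith⟩
  set m := Nat.find hexm
  have hm : m ≤ j + 5 := Nat.find_min' hexm (by
    have h : (2 : ℝ) ^ (j + 5) * (1 / 2) ^ (j + 5) = 1 := by rw [← mul_pow]; norm_num
    have := mul_le_mul_of_nonneg_left (show (1 / 2 : ℝ) ^ (j + 5) ≤ dw x t lam H (j + 1) by
      linarith) (show (0 : ℝ) ≤ 2 ^ (j + 5) by positivity)
    linarith)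
  refine ⟨j, m, by omega, hm, hlt j (by omega), Nat.find_spec hexm, ?_⟩
  rcases Nat.eq_zero_or_pos m with hm0 | hm0
  · rw [hm0, pow_zero, one_mul]
    have h2 := sum_pw_le hx hl H l
    rw [show l + 1 = n by omega] at h2
    have h3 : pw x t lam H (j + 1) ≤ ∑ k ∈ range n, pw x t lam H (k + 1) :=
      single_le_sum (f := fun k => pw x t lam H (k + 1))
        (fun k _ => pw_nonneg hx hl H (k + 1)) hj
    have h4 : nw x t lam (j + 1) ≤ ∑ k ∈ range n, nw x t lam (k + 1) :=
      single_le_sum (f := fun k => nw x t lam (k + 1))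
        (fun k _ => nw_nonneg hx hl (k + 1)) hj
    have h5 := (sum_nw_le hx hl n).trans hν
    have h6 := hlt l le_rfl
    linarith
  · have hmin := Nat.find_min hexm (show m - 1 < m by omega)
    push Not at hmin
    have e : (2 : ℝ) ^ m = 2 * 2 ^ (m - 1) := by
      rw [← pow_succ', Nat.sub_add_cancel hm0]
    rw [e]
    have := mul_le_mul_of_nonneg_left (show 8 * (pw x t lam H (j + 1) + nw x t lam (j + 1)) ≤
      dw x t lam H (j + 1) by linarith) (show (0 : ℝ) ≤ 2 ^ (m - 1) by positivity)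
    linarith

theorem class_union (hx : 0 ≤ x) (hl : Small t lam) {H : Finset X} {j m : ℕ}
    (hd : 1 ≤ (2 : ℝ) ^ m * dw x t lam H (j + 1)) :
    ∃ U ⊆ H, U.card ≤ t * thr t (j + 1) ∧ 1 ≤ tot (lk x t lam (j + 1) m) U := by
  classical
  set 𝒞 := H.powerset.filter fun J => Cls x t lam (j + 1) J with h𝒞
  have hg := gw_nonneg (X := X) hx hl
  obtain ⟨𝒥, hsub, hcard, hsum⟩ : ∃ 𝒥 ⊆ 𝒞, 𝒥.card ≤ thr t (j + 1) ∧
      1 ≤ (2 : ℝ) ^ m * ∑ J ∈ 𝒥, gw x t lam J := by
    rcases le_total 𝒞.card (thr t (j + 1)) with h | h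
    · exact ⟨𝒞, Subset.rfl, h, hd⟩
    · obtain ⟨𝒥, hsub, hcard⟩ := exists_subset_card_eq h
      refine ⟨𝒥, hsub, hcard.le, one_le_mul_of_one_le_of_one_le (one_le_pow₀ (by norm_num)) ?_⟩
      refine le_trans ?_ (card_nsmul_le_sum 𝒥 _ (1 / (thr t (j + 1) : ℝ)) fun J hJ =>
        (gw_pos_card hx hl (mem_filter.1 (hsub hJ)).2.1).2)
      rw [nsmul_eq_mul, hcard, mul_one_div_cancel]
      exact_mod_cast (thr_pos t (j + 1)).ne'
  refine ⟨𝒥.biUnion id, biUnion_subset.2 fun J hJ => mem_powerset.1 (mem_filter.1 (hsub hJ)).1,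
    ?_, ?_⟩
  · refine card_biUnion_le.trans ((sum_le_sum fun J hJ =>
      (gw_pos_card hx hl (mem_filter.1 (hsub hJ)).2.1).1).trans ?_)
    rw [sum_const, smul_eq_mul, mul_comm]
    exact Nat.mul_le_mul_left _ hcard
  · refine hsum.trans ?_
    rw [mul_sum, tot]
    refine le_trans (le_of_eq (sum_congr rfl fun J hJ => ?_))
      (sum_le_sum_of_subset_of_nonneg (fun J hJ => mem_powerset.2 (subset_biUnion_of_mem id hJ))
        fun J _ _ => (lk_small hx hl _ _).nonneg J)
    rw [lk, if_pos (mem_filter.1 (hsub hJ)).2]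

theorem lcore_card (hx : 0 ≤ x) (hl : Small t lam) {H U : Finset X} (hU : U ⊆ H) {j : ℕ}
    (ha : aw x t lam H j < 1) {i : ℕ} (hij : i ≤ j) :
    (lcore x t lam i U).card ≤ t * thr t i := by
  classical
  set 𝓛 := U.powerset.filter fun L => Lo x t lam i L
  have hc : 𝓛.card ≤ thr t i := by
    by_contra hcon
    have h1 : (𝓛.card : ℝ) * (1 / thr t i) ≤ aw x t lam H j := by
      rw [← nsmul_eq_mul]
      refine (card_nsmul_le_sum 𝓛 (gw x t lam) _ fun L hL =>
        (gw_pos_card hx hl (mem_filter.1 hL).2).2).trans ?_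
      refine sum_le_sum_of_subset_of_nonneg (fun L hL => ?_) fun L _ _ => gw_nonneg hx hl L
      simp only [𝓛, mem_filter, mem_powerset] at hL ⊢
      exact ⟨hL.1.trans hU, hL.2.mono hij⟩
    have h2 : (thr t i : ℝ) ≤ 𝓛.card := by exact_mod_cast (not_le.1 hcon).le
    have h3 : (0 : ℝ) < thr t i := by exact_mod_cast thr_pos t i
    rw [mul_one_div, div_le_iff₀ h3] at h1
    nlinarith
  refine card_biUnion_le.trans ((sum_le_sum fun L hL =>
    (gw_pos_card hx hl (mem_filter.1 hL).2).1).trans ?_)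
  rw [sum_const, smul_eq_mul, mul_comm]
  exact Nat.mul_le_mul_left _ hc

theorem psi_pure_le (hx : 0 ≤ x) (ht : 1 ≤ t) (hl : Small t lam) {H V : Finset X} (hV : V ⊆ H)
    (j m : ℕ) :
    psi x (pureAt (lcore x t lam j) (lk x t lam (j + 2) m) V) V ≤
      2 ^ m * (pw x t lam H (j + 2) + nw x t lam (j + 2)) +
        ((V.card : ℝ) + 1) ^ t * (2 * (256 * (t : ℝ)) ^ t) * 2 ^ m / thr t (j + 1) := by
  classical
  have hg := gw_nonneg (X := X) hx hl
  have hm : (0 : ℝ) ≤ 2 ^ m := by positivity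
  set PJ := H.powerset.filter fun J => Lo x t lam (j + 1) J
  set SJ := (V.powerset.filter fun J => J.card ≤ t).filter fun J =>
    dg x lam J ≤ 1 / (thr t (j + 1) : ℝ)
  set fν : Finset X → ℝ := fun S =>
    if Cls x t lam (j + 2) S then gw x t lam S * x ^ S.card else 0
  set fP : Finset X → Finset X → ℝ := fun J S =>
    if Cls x t lam (j + 2) S ∧ Vd x t lam S J then gw x t lam S * x ^ (S.card - J.card) else 0
  set fS : Finset X → Finset X → ℝ := fun J S =>
    if J ⊆ S then gw x t lam S * x ^ (S.card - J.card) else 0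
  have hfν : ∀ S, 0 ≤ fν S := fun S => by
    simp only [fν]; have := hg S; split <;> positivity
  have hfP : ∀ J S, 0 ≤ fP J S := fun J S => by
    simp only [fP]; have := hg S; split <;> positivity
  have hfS : ∀ J S, 0 ≤ fS J S := fun J S => by
    simp only [fS]; have := hg S; split <;> positivity
  have key : ∀ S : Finset X, pureAt (lcore x t lam j) (lk x t lam (j + 2) m) V S *
      x ^ (S \ V).card ≤ 2 ^ m * (fν S + ∑ J ∈ PJ, fP J S + ∑ J ∈ SJ, fS J S) := by
    intro S
    have n1 := hfν S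
    have n2 : 0 ≤ ∑ J ∈ PJ, fP J S := sum_nonneg fun J _ => hfP J S
    have n3 : 0 ≤ ∑ J ∈ SJ, fS J S := sum_nonneg fun J _ => hfS J S
    unfold pureAt lk
    by_cases hcr : lcore x t lam j S ⊆ V
    swap
    · rw [if_neg hcr, zero_mul]; positivity
    rw [if_pos hcr]
    by_cases hS : Cls x t lam (j + 2) S
    swap
    · rw [if_neg hS, zero_mul]; positivity
    rw [if_pos hS, mul_assoc]
    refine mul_le_mul_of_nonneg_left ?_ hm
    have hsd : (S \ V).card = S.card - (S ∩ V).card := by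
      have := card_sdiff_add_card_inter S V
      omega
    rw [hsd]
    have hJS : S ∩ V ⊆ S := inter_subset_left
    by_cases h0 : S ∩ V = ∅
    · have : gw x t lam S * x ^ (S.card - (S ∩ V).card) = fν S := by
        simp only [fν]; rw [if_pos hS, h0, card_empty, Nat.sub_zero]
      linarith
    by_cases hlo : Lo x t lam (j + 1) (S ∩ V)
    · have hss : S ∩ V ⊂ S := hJS.ssubset_of_ne fun h => hS.2 (by
        rw [h] at hlo
        simpa using hlo)
      have hvd : Vd x t lam S (S ∩ V) := ⟨hss, j + 2, hS, by simpa using hlo,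
        by simpa using subset_inter (lcore_subset j S) hcr⟩
      have : fP (S ∩ V) S ≤ ∑ J ∈ PJ, fP J S := single_le_sum (f := fun J => fP J S)
        (fun J _ => hfP J S) (mem_filter.2 ⟨mem_powerset.2 (inter_subset_right.trans hV), hlo⟩)
      simp only [fP] at this
      rw [if_pos ⟨hS, hvd⟩] at this
      simp only [fP]
      linarith
    · have hcard : (S ∩ V).card ≤ t :=
        (card_le_card hJS).trans (gw_pos_card hx hl hS.1).1
      have hdg : dg x lam (S ∩ V) ≤ 1 / (thr t (j + 1) : ℝ) :=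
        le_of_lt (not_le.1 fun h => hlo ⟨by omega, h0, h⟩)
      have : fS (S ∩ V) S ≤ ∑ J ∈ SJ, fS J S := single_le_sum (f := fun J => fS J S)
        (fun J _ => hfS J S) (mem_filter.2 ⟨mem_filter.2
          ⟨mem_powerset.2 inter_subset_right, hcard⟩, hdg⟩)
      simp only [fS] at this
      rw [if_pos hJS] at this
      simp only [fS]
      linarith
  refine (sum_le_sum fun S _ => key S).trans ?_
  rw [← mul_sum, sum_add_distrib, sum_add_distrib, sum_comm (t := PJ), sum_comm (t := SJ)]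
  have e2 : ∑ J ∈ PJ, ∑ S, fP J S = pw x t lam H (j + 2) := rfl
  have e3 : ∑ J ∈ SJ, ∑ S, fS J S ≤
      ((V.card : ℝ) + 1) ^ t * (2 * (256 * (t : ℝ)) ^ t) / thr t (j + 1) := by
    calc ∑ J ∈ SJ, ∑ S, fS J S
        ≤ ∑ _J ∈ SJ, 2 * (256 * (t : ℝ)) ^ t * (1 / thr t (j + 1)) := sum_le_sum fun J hJ =>
          (sum_above_le hx ht hl J).trans
            (mul_le_mul_of_nonneg_left (mem_filter.1 hJ).2 (by positivity))
      _ ≤ ((V.card : ℝ) + 1) ^ t * (2 * (256 * (t : ℝ)) ^ t * (1 / thr t (j + 1))) := by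
          rw [sum_const, nsmul_eq_mul]
          refine mul_le_mul_of_nonneg_right ?_ (by positivity)
          exact_mod_cast (card_le_card (filter_subset _ _)).trans (card_small_subsets V t)
      _ = _ := by ring
  have e3' := mul_le_mul_of_nonneg_left e3 hm
  have e1 : ∑ S, fν S = nw x t lam (j + 2) := rfl
  rw [e1, e2]
  have e4 : (2 : ℝ) ^ m * (((V.card : ℝ) + 1) ^ t * (2 * (256 * (t : ℝ)) ^ t) / thr t (j + 1)) =
      ((V.card : ℝ) + 1) ^ t * (2 * (256 * (t : ℝ)) ^ t) * 2 ^ m / thr t (j + 1) := by ring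
  linarith

end Vale.Agent.P034
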