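import Vale.Agent.P034.Classes

/-!
A cover for all sets of large weight, one size of weighted sets at a time.
-/

namespace Vale.Agent.P034

open Finset

set_option linter.unusedSectionVars false

variable {X : Type*} [Fintype X] [DecidableEq X]
variable {x : ℝ} {t : ℕ} {lam : Finset X → ℝ}

theorem cost_biUnion_le {ι : Type*} (hx : 0 ≤ x) (T : Finset ι)
    (G : ι → Finset (Finset X)) : cost x (T.biUnion G) ≤ ∑ i ∈ T, cost x (G i) := by
  classical
  induction T using Finset.induction with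
  | empty => simp [cost]
  | insert i T hi ih =>
    rw [biUnion_insert, sum_insert hi]
    exact (cost_union_le hx _ _).trans (add_le_add le_rfl ih)

/-- covering the first class -/
theorem cover_one (hx : 0 ≤ x) (hx1 : x ≤ 1) (ht : 1 ≤ t) (hl : Small t lam)
    (hε : mu x (gw x t lam) ≤ (1 / 2) ^ (170 * t)) {m : ℕ} (hm : m ≤ 5) :
    Cov x t 1 (lk x t lam 1 m) := by
  refine levels hx hx1 ht 1 _ (lk_small hx hl 1 m) ?_
  rw [show ((1 : ℕ) : ℝ) + 2 = 3 by norm_num]
  refine (mu_lk_le hx hl (by norm_num) 1 m).trans ?_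
  calc (2 : ℝ) ^ m * (3 ^ t * mu x (gw x t lam)) ≤ 2 ^ 5 * (4 ^ t * (1 / 2) ^ (170 * t)) :=
        mul_le_mul (pow_le_pow_right₀ (by norm_num) hm)
          (mul_le_mul (pow_le_pow_left₀ (by norm_num) (by norm_num) t) hε
            (sum_nonneg fun S _ => mul_nonneg (gw_nonneg hx hl S) (pow_nonneg hx _))
            (by positivity))
          (mul_nonneg (by positivity)
            (sum_nonneg fun S _ => mul_nonneg (gw_nonneg hx hl S) (pow_nonneg hx _)))
          (by positivity)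
    _ = 2 ^ (5 + 2 * t) * (1 / 2) ^ (170 * t) := by
        rw [pow_add, pow_mul (2 : ℝ) 2 t, show (2 : ℝ) ^ 2 = 4 by norm_num, mul_assoc]
    _ ≤ 2 ^ (5 + 2 * t) * (1 / 2) ^ ((5 + 2 * t) + (8 * t + 70)) :=
        mul_le_mul_of_nonneg_left (pow_le_pow_of_le_one (by norm_num) (by norm_num) (by omega))
          (by positivity)
    _ = (1 / 2) ^ (8 * t + 70) * 1 := by
        rw [pow_add (1 / 2 : ℝ) (5 + 2 * t), ← mul_assoc, ← mul_pow,
          show (2 : ℝ) * (1 / 2) = 1 by norm_num, one_pow, one_mul, mul_one]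
    _ ≤ _ := mul_le_mul_of_nonneg_left (Real.one_le_exp (by positivity)) (by positivity)

theorem thr_one_le (t : ℕ) (ht : 1 ≤ t) : t * thr t 1 ≤ 2 ^ rr t 1 := by
  show t * 2 ^ (8 * t * (t + 30)) ≤ 2 ^ 2 ^ ((4 * t + 40) / 2)
  rw [show (4 * t + 40) / 2 = 2 * t + 20 by omega]
  refine (Nat.mul_le_mul_right _ (Nat.lt_two_pow_self (n := t)).le).trans ?_
  rw [← pow_add]
  refine Nat.pow_le_pow_right (by norm_num) ?_
  have h1 := sq64_le_pow (n := 2 * t + 20) (by omega)
  nlinarith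

/-- covering a higher class -/
theorem cover_higher (hx : 0 ≤ x) (ht : 1 ≤ t) (hl : Small t lam)
    (hε : mu x (gw x t lam) ≤ (1 / 2) ^ (170 * t)) {j m : ℕ} (hm : m ≤ j + 6) :
    ∃ G : Finset (Finset X), (∀ H U : Finset X, U ⊆ H → U.card ≤ t * thr t (j + 2) →
      1 ≤ tot (lk x t lam (j + 2) m) U → (lcore x t lam j U).card ≤ t * thr t j →
      (2 : ℝ) ^ m * (pw x t lam H (j + 2) + nw x t lam (j + 2)) ≤ 1 / 4 →
      ∃ B ∈ G, B ⊆ U) ∧ cost x G ≤ 3 * (1 / 2) ^ (t + 2 * (j + 2) + 16) := by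
  set e := t * thr t (j + 2) with he
  set M : ℝ := ((e * mexp t j + (t + 2 * (j + 2) + 16) : ℕ) : ℝ) with hM
  obtain ⟨G, hG, hc⟩ := step_pure (e := e) (s := 2 ^ (3 * pp t (j + 1)))
    (cr := lcore x t lam j) (θ := 1 / 2) (d := 2 ^ (t + 4 * (j + 2) + 24)) (M := M) hx
    (lk_small hx hl (j + 2) m) (lcore_subset j) (fun S U h => lcore_mono h) Nat.one_le_two_pow
    (t * thr t j) (by norm_num) (by positivity) (Nat.cast_nonneg _)
  refine ⟨G, fun H U hUH hUe hU hcore hch => hG U hUe hU ⟨hcore, fun V hV hcard => ?_⟩, ?_⟩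
  · refine (psi_pure_le hx ht hl (hV.trans hUH) j m).trans ?_
    have := num_pure ht hm hcard
    linarith
  · have hθ := num_theta ht j
    have hK := kill (by positivity) _ e (t + 2 * (j + 2) + 16) (num_Y t j)
    have hd : mu (2 * x) (lk x t lam (j + 2) m) / 2 ^ (t + 4 * (j + 2) + 24) ≤
        (1 / 2) ^ (t + 2 * (j + 2) + 16) := by
      rw [div_le_iff₀ (by positivity)]
      refine (mu_lk_le hx hl (by norm_num) _ m).trans ?_
      calc (2 : ℝ) ^ m * (2 ^ t * mu x (gw x t lam))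
          ≤ 2 ^ (j + 6) * (2 ^ t * (1 / 2) ^ t) :=
            mul_le_mul (pow_le_pow_right₀ (by norm_num) hm)
              (mul_le_mul_of_nonneg_left
                (hε.trans (pow_le_pow_of_le_one (by norm_num) (by norm_num) (by omega)))
                (by positivity))
              (mul_nonneg (by positivity)
                (sum_nonneg fun S _ => mul_nonneg (gw_nonneg hx hl S) (pow_nonneg hx _)))
              (by positivity)
        _ = (1 / 2) ^ (t + 2 * (j + 2) + 16) * 2 ^ ((t + 2 * (j + 2) + 16) + (j + 6)) := by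
            rw [← mul_pow, show (2 : ℝ) * (1 / 2) = 1 by norm_num, one_pow, mul_one,
              pow_add (2 : ℝ) (t + 2 * (j + 2) + 16), ← mul_assoc, ← mul_pow,
              show (1 / 2 : ℝ) * 2 = 1 by norm_num, one_pow, one_mul]
        _ ≤ _ := mul_le_mul_of_nonneg_left
            (pow_le_pow_right₀ (by norm_num) (by omega)) (by positivity)
    linarith

/-- covering all sets of weight at least `2` -/
theorem cover_size (hx : 0 ≤ x) (hx1 : x ≤ 1) (ht : 1 ≤ t) (hl : Small t lam)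
    (hl0 : lam ∅ = 0) (hμ : mu (2 * x) lam ≤ (1 / 2) ^ (188 * t)) :
    ∃ G : Finset (Finset X), (∀ H : Finset X, 2 ≤ tot lam H → ∃ B ∈ G, B ⊆ H) ∧
      cost x G ≤ 13 * (1 / 2) ^ (t + 6) := by
  classical
  have hε : mu x (gw x t lam) ≤ (1 / 2) ^ (170 * t) := by
    refine (mu_gw_le hx hl).trans ?_
    calc 2 * (64 : ℝ) ^ (2 * t) * mu (2 * x) lam
        ≤ 2 * 64 ^ (2 * t) * (1 / 2) ^ (188 * t) := mul_le_mul_of_nonneg_left hμ (by positivity)
      _ = 2 ^ (1 + 12 * t) * (1 / 2) ^ (188 * t) := by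
          rw [show (64 : ℝ) = 2 ^ 6 by norm_num, ← pow_mul, pow_add]
          ring
      _ ≤ 2 ^ (1 + 12 * t) * (1 / 2) ^ ((1 + 12 * t) + 170 * t) :=
          mul_le_mul_of_nonneg_left (pow_le_pow_of_le_one (by norm_num) (by norm_num) (by omega))
            (by positivity)
      _ = _ := by
          rw [pow_add (1 / 2 : ℝ), ← mul_assoc, ← mul_pow, show (2 : ℝ) * (1 / 2) = 1 by norm_num,
            one_pow, one_mul]
  have hν : mu x (gw x t lam) ≤ 1 / 64 :=
    hε.trans ((pow_le_pow_of_le_one (by norm_num) (by norm_num) (show 6 ≤ 170 * t by omega)).trans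
      (by norm_num))
  obtain ⟨K, hK⟩ : ∃ K : ℕ, ∀ J : Finset X, lam J ≠ 0 → Lo x t lam K J := by
    refine ⟨(univ : Finset (Finset X)).sup (fun J => ⌈1 / lam J⌉₊) + 1, fun J hJ =>
      ⟨Nat.le_add_left 1 _, fun h => hJ (h ▸ hl0), ?_⟩⟩
    set K := (univ : Finset (Finset X)).sup (fun J => ⌈1 / lam J⌉₊) + 1
    have hpos : 0 < lam J := lt_of_le_of_ne (hl.nonneg J) (Ne.symm hJ)
    have h1 : 1 / lam J ≤ (thr t K : ℝ) := by
      refine (Nat.le_ceil _).trans (Nat.cast_le.2 ?_)
      have h2 : ⌈1 / lam J⌉₊ ≤ K :=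
        (le_sup (f := fun J => ⌈1 / lam J⌉₊) (mem_univ J)).trans (Nat.le_succ _)
      refine h2.trans (Nat.lt_two_pow_self.le.trans ?_)
      refine Nat.pow_le_pow_right (by norm_num) ?_
      have := pp_ge t (K - 1)
      rw [show K - 1 + 1 = K by omega] at this
      exact (show K ≤ pp t K by omega).trans (Nat.le_mul_of_pos_left _ (by omega))
    refine le_trans (b := lam J) ?_ (le_trans (le_of_eq ?_) (single_le_sum (fun S _ => ?_) (mem_univ J)))
    · rw [div_le_iff₀ (by exact_mod_cast thr_pos t K)]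
      rw [div_le_iff₀ hpos] at h1
      linarith
    · rw [if_pos Subset.rfl, Nat.sub_self, pow_zero, mul_one]
    · have := hl.nonneg S
      split <;> positivity
  choose G1 hG1 hG1c using fun (m : Fin 6) =>
    cover_one hx hx1 ht hl hε (Nat.le_of_lt_succ m.isLt)
  choose G2 hG2 hG2c using fun (q : (j : ℕ) × Fin (j + 7)) =>
    cover_higher hx ht hl hε (j := q.1) (Nat.le_of_lt_succ q.2.isLt)
  set T := (range K).sigma fun j => (univ : Finset (Fin (j + 7)))
  refine ⟨univ.biUnion G1 ∪ T.biUnion G2, fun H hH => ?_, ?_⟩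
  · obtain ⟨j, m, hjK, hm, hlt, hd, hch⟩ := choose_class hx hl hν hK hH
    obtain ⟨U, hUH, hUc, hU⟩ := class_union hx hl hd
    cases j with
    | zero =>
      obtain ⟨B, hB, hBU⟩ := hG1 ⟨m, by omega⟩ U (hUc.trans (thr_one_le t ht)) hU
      exact ⟨B, mem_union_left _ (mem_biUnion.2 ⟨_, mem_univ _, hB⟩), hBU.trans hUH⟩
    | succ i =>
      obtain ⟨B, hB, hBU⟩ := hG2 ⟨i, ⟨m, by omega⟩⟩ H U hUH hUc hU
        (lcore_card hx hl hUH hlt (Nat.le_succ i)) hch
      refine ⟨B, mem_union_right _ (mem_biUnion.2 ⟨_, ?_, hB⟩), hBU.trans hUH⟩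
      exact mem_sigma.2 ⟨mem_range.2 (by show i < K; omega), mem_univ _⟩
  · refine (cost_union_le hx _ _).trans ?_
    have h1 : cost x (univ.biUnion G1) ≤ 12 * (1 / 2) ^ (t + 6) := by
      refine (cost_biUnion_le hx _ _).trans ((sum_le_sum fun m _ => (hG1c m).trans
        (mul_le_mul_of_nonneg_left (by norm_num : (2 : ℝ) - (1 / 2) ^ 1 ≤ 2) (by positivity))).trans ?_)
      rw [sum_const, card_univ, Fintype.card_fin, nsmul_eq_mul]
      norm_num
      linarith
    have h2 : cost x (T.biUnion G2) ≤ (1 / 2) ^ (t + 6) := by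
      refine (cost_biUnion_le hx _ _).trans ((sum_le_sum fun q _ => hG2c q).trans ?_)
      rw [sum_sigma]
      have hj : ∀ j ∈ range K, (∑ _m : Fin (j + 7), 3 * (1 / 2 : ℝ) ^ (t + 2 * (j + 2) + 16)) ≤
          (1 / 2) ^ (t + 7) * (1 / 2) ^ j := by
        intro j _
        rw [sum_const, card_univ, Fintype.card_fin, nsmul_eq_mul]
        have h : ((3 * (j + 7) : ℕ) : ℝ) ≤ 2 ^ (j + 13) := by
          have h0 : j < 2 ^ j := Nat.lt_two_pow_self
          have h1 : 2 ^ (j + 13) = 2 ^ j * 8192 := by rw [pow_add]; norm_num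
          have : 3 * (j + 7) ≤ 2 ^ (j + 13) := by omega
          exact_mod_cast this
        rw [show ((j + 7 : ℕ) : ℝ) * (3 * (1 / 2) ^ (t + 2 * (j + 2) + 16)) =
          ((3 * (j + 7) : ℕ) : ℝ) * (1 / 2) ^ (t + 2 * (j + 2) + 16) by push_cast; ring]
        refine (mul_le_mul_of_nonneg_right h (by positivity)).trans (le_of_eq ?_)
        rw [show t + 2 * (j + 2) + 16 = (j + 13) + (t + 7 + j) by omega, pow_add (1 / 2 : ℝ) (j + 13),
          ← mul_assoc, ← mul_pow, show (2 : ℝ) * (1 / 2) = 1 by norm_num, one_pow, one_mul, pow_add]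
      refine (sum_le_sum hj).trans ?_
      rw [← mul_sum, pow_succ (1 / 2 : ℝ) (t + 6), mul_assoc]
      refine mul_le_of_le_one_right (by positivity) ?_
      have h := sum_geometric_two_le (n := K)
      linarith
    linarith

end Vale.Agent.P034
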