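import Vale.Agent.P034.Basic

/-!
One step of the recursion: from covering small sets with large `psi` to covering sets of size `e`
with large total weight.
-/

namespace Vale.Agent.P034

open Finset

set_option linter.unusedSectionVars false

variable {X : Type*} [Fintype X] [DecidableEq X]
variable {x : ℝ} {t : ℕ} {lam : Finset X → ℝ}

/-- weights of unions of `s` sampled sets, sampling stopped at a bad union -/
noncomputable def wt (x : ℝ) (lam : Finset X → ℝ) (θ : ℝ) : ℕ → Finset X → ℝ
  | 0 => fun A => if A = ∅ then 1 else 0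
  | s + 1 => fun A => ∑ V, ∑ S,
      if V ∪ S = A then (if psi x lam V ≤ θ then wt x lam θ s V * lam S else 0) else 0

theorem wt_nonneg (hl : Small t lam) (θ : ℝ) : ∀ (s : ℕ) (A : Finset X), 0 ≤ wt x lam θ s A
  | 0, A => by simp only [wt]; split <;> norm_num
  | s + 1, A => by
    simp only [wt]
    refine sum_nonneg fun V _ => sum_nonneg fun S _ => ?_
    have := hl.nonneg S
    have := wt_nonneg hl θ s V
    split
    · split <;> positivity
    · exact le_rfl

theorem sum_wt_succ (θ : ℝ) (s : ℕ) (φ : Finset X → ℝ) :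
    ∑ A, wt x lam θ (s + 1) A * φ A =
      ∑ V, ∑ S, (if psi x lam V ≤ θ then wt x lam θ s V * lam S else 0) * φ (V ∪ S) := by
  simp only [wt, sum_mul]
  rw [sum_comm]
  refine sum_congr rfl fun V _ => ?_
  rw [sum_comm]
  refine sum_congr rfl fun S _ => ?_
  simp only [ite_mul, zero_mul]
  rw [sum_ite_eq]
  simp

theorem mu_wt_le {θ : ℝ} (hθ : 0 ≤ θ) (hx : 0 ≤ x) (hl : Small t lam) :
    ∀ s, mu x (wt x lam θ s) ≤ θ ^ s
  | 0 => by simp [mu, wt]
  | s + 1 => by
    rw [mu, sum_wt_succ θ s fun A => x ^ A.card, pow_succ']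
    calc ∑ V, ∑ S, (if psi x lam V ≤ θ then wt x lam θ s V * lam S else 0) * x ^ (V ∪ S).card
        ≤ ∑ V, θ * (wt x lam θ s V * x ^ V.card) := by
          refine sum_le_sum fun V _ => ?_
          have hw := wt_nonneg (x := x) hl θ s V
          by_cases hV : psi x lam V ≤ θ
          · simp only [if_pos hV]
            calc ∑ S, wt x lam θ s V * lam S * x ^ (V ∪ S).card
                = wt x lam θ s V * x ^ V.card * psi x lam V := by
                  rw [psi, mul_sum]
                  refine sum_congr rfl fun S _ => ?_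
                  rw [show (V ∪ S).card = V.card + (S \ V).card by
                    rw [← card_union_of_disjoint disjoint_sdiff, union_sdiff_self_eq_union], pow_add]
                  ring
              _ ≤ wt x lam θ s V * x ^ V.card * θ :=
                  mul_le_mul_of_nonneg_left hV (by positivity)
              _ = _ := by ring
          · simp only [if_neg hV, zero_mul, sum_const_zero]
            positivity
      _ ≤ θ * θ ^ s := by
          rw [← mul_sum]
          exact mul_le_mul_of_nonneg_left (mu_wt_le hθ hx hl s) hθ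

theorem wt_card (hl : Small t lam) (θ : ℝ) :
    ∀ (s : ℕ) (A : Finset X), wt x lam θ s A ≠ 0 → A.card ≤ s * t
  | 0, A, h => by
    simp only [wt, ne_eq, ite_eq_right_iff, one_ne_zero, imp_false, not_not] at h
    simp [h]
  | s + 1, A, h => by
    simp only [wt] at h
    obtain ⟨V, -, hV⟩ := exists_ne_zero_of_sum_ne_zero h
    obtain ⟨S, -, hS⟩ := exists_ne_zero_of_sum_ne_zero hV
    by_cases h1 : V ∪ S = A
    · rw [if_pos h1] at hS
      by_cases h2 : psi x lam V ≤ θ
      · rw [if_pos h2] at hS
        have a := wt_card hl θ s V (left_ne_zero_of_mul hS)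
        have b := hl.size S (right_ne_zero_of_mul hS)
        rw [← h1, Nat.succ_mul]
        exact (card_union_le _ _).trans (add_le_add a b)
      · simp [h2] at hS
    · simp [h1] at hS

theorem tot_wt (hl : Small t lam) {θ : ℝ} {A : Finset X} : ∀ s,
    (∀ V ⊆ A, V.card ≤ (s - 1) * t → psi x lam V ≤ θ) →
      tot (wt x lam θ s) A = tot lam A ^ s
  | 0, _ => by simp [tot, wt]
  | s + 1, h => by
    have ih : tot (wt x lam θ s) A = tot lam A ^ s := tot_wt hl s fun V hV hc =>
      h V hV (hc.trans (Nat.mul_le_mul_right _ (by omega)))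
    have e : ∀ (f : Finset X → ℝ), tot f A = ∑ B, f B * if B ⊆ A then 1 else 0 := fun f => by
      rw [tot, show A.powerset = univ.filter (· ⊆ A) by ext; simp, sum_filter]
      exact sum_congr rfl fun B _ => by split <;> simp
    rw [pow_succ, ← ih, e (wt x lam θ (s + 1)), sum_wt_succ θ s fun B => if B ⊆ A then 1 else 0,
      e (wt x lam θ s), e lam, sum_mul]
    refine sum_congr rfl fun V _ => ?_
    rw [mul_sum]
    refine sum_congr rfl fun S _ => ?_
    rcases eq_or_ne (wt x lam θ s V) 0 with h0 | h0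
    · simp [h0]
    by_cases hV : V ⊆ A
    · have hgood := h V hV (by simpa using wt_card hl θ s V h0)
      by_cases hS : S ⊆ A <;> simp [hgood, hV, hS, union_subset_iff]
    · simp [hV, union_subset_iff]

/-- the sets of weight at least `ε` -/
noncomputable def big (lam : Finset X → ℝ) (ε : ℝ) : Finset (Finset X) :=
  univ.filter fun S => ε ≤ lam S

open Classical in
/-- candidate kernels -/
noncomputable def ker (ok : Finset X → Prop) (D : Finset (Finset X)) : ℕ → Finset (Finset X)
  | 0 => {∅}
  | k + 1 => ker ok D k ∪ (((ker ok D k).filter ok) ×ˢ D).image fun q => q.1 ∪ q.2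

theorem cost_ker {ε P : ℝ} (hε : 0 < ε) (hP : 0 ≤ P) (hx : 0 ≤ x) (hl : Small t lam)
    {ok : Finset X → Prop} (hok : ∀ V, ok V → psi x lam V ≤ P) :
    ∀ k, cost x (ker ok (big lam ε) k) ≤ (1 + P / ε) ^ k
  | 0 => by simp [ker, cost]
  | k + 1 => by
    classical
    have ih := cost_ker hε hP hx hl hok k
    set K := ker ok (big lam ε) k with hK
    rw [ker, ← hK, pow_succ']
    refine (cost_union_le hx _ _).trans ?_
    have h0 := cost_nonneg hx K
    have himg : cost x (((K.filter ok) ×ˢ big lam ε).image fun q => q.1 ∪ q.2) ≤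
        P / ε * cost x K := by
      refine (sum_image_le_of_nonneg fun u _ => pow_nonneg hx _).trans ?_
      rw [sum_product, cost, mul_sum]
      refine le_trans ?_ (sum_le_sum_of_subset_of_nonneg (filter_subset ok K)
        fun V _ _ => mul_nonneg (div_nonneg hP hε.le) (pow_nonneg hx _))
      refine sum_le_sum fun V hV => ?_
      have h1 : ∑ S ∈ big lam ε, x ^ (S \ V).card ≤ P / ε := by
        rw [le_div_iff₀ hε, sum_mul]
        refine le_trans ?_ (hok V (mem_filter.1 hV).2)
        refine le_trans (sum_le_sum fun S hS => ?_) (sum_le_univ_sum_of_nonneg fun S =>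
          mul_nonneg (hl.nonneg S) (pow_nonneg hx _))
        rw [mul_comm]
        exact mul_le_mul_of_nonneg_right (mem_filter.1 hS).2 (pow_nonneg hx _)
      refine le_trans (le_of_eq ?_) (mul_le_mul_of_nonneg_right h1 (pow_nonneg hx V.card))
      rw [sum_mul]
      refine sum_congr rfl fun S _ => ?_
      rw [← pow_add]
      congr 1
      rw [← union_sdiff_self_eq_union, card_union_of_disjoint disjoint_sdiff, add_comm]
    calc cost x K + _ ≤ cost x K + P / ε * cost x K := add_le_add le_rfl himg
      _ = (1 + P / ε) * cost x K := by ring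
      _ ≤ _ := mul_le_mul_of_nonneg_left ih (by positivity)

theorem reach {ok : Finset X → Prop} {ε : ℝ} {U : Finset X}
    (hok : ∀ V ⊆ ((big lam ε).filter (· ⊆ U)).biUnion id, ok V) :
    ∀ k, ∃ V ∈ ker ok (big lam ε) k, V ⊆ ((big lam ε).filter (· ⊆ U)).biUnion id ∧
      (k ≤ V.card ∨ V = ((big lam ε).filter (· ⊆ U)).biUnion id)
  | 0 => ⟨∅, by simp [ker], empty_subset _, Or.inl le_rfl⟩
  | k + 1 => by
    classical
    obtain ⟨V, hV, hVA, hd⟩ := reach hok k
    set A := ((big lam ε).filter (· ⊆ U)).biUnion id with hA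
    by_cases hEq : V = A
    · exact ⟨V, by rw [ker]; exact mem_union_left _ hV, hVA, Or.inr hEq⟩
    obtain ⟨y, hyA, hyV⟩ := exists_of_ssubset (hVA.ssubset_of_ne hEq)
    rw [hA, mem_biUnion] at hyA
    obtain ⟨S, hS, hyS⟩ := hyA
    have hSA : S ⊆ A := subset_biUnion_of_mem id hS
    refine ⟨V ∪ S, ?_, union_subset hVA hSA, Or.inl ?_⟩
    · rw [ker]
      exact mem_union_right _ (mem_image.2 ⟨(V, S),
        mem_product.2 ⟨mem_filter.2 ⟨hV, hok V hVA⟩, (mem_filter.1 hS).1⟩, rfl⟩)
    · have h1 : V.card < (V ∪ S).card := card_lt_card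
        ⟨subset_union_left, fun h => hyV (h (mem_union_right _ hyS))⟩
      have := hd.resolve_right hEq
      omega

/-- The step, for any weights that reproduce powers of the total weight inside good sets. -/
theorem step_gen (hx : 0 ≤ x) (hl : Small t lam) {e s : ℕ} (hs : 1 ≤ s) {d M C : ℝ}
    (hd : 0 < d) (hM : 0 ≤ M) {w : Finset X → ℝ} (hw : ∀ A, 0 ≤ w A) (hC : mu x w ≤ C)
    {good : Finset X → Prop}
    (htot : ∀ U A : Finset X, good U → A ⊆ U →
      (∀ V ⊆ A, psi x lam V ≤ ((e : ℝ) + 1) ^ t * d) → tot w A = tot lam A ^ s) :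
    ∃ G : Finset (Finset X),
      (∀ U : Finset X, U.card ≤ e → 1 ≤ tot lam U → good U → ∃ B ∈ G, B ⊆ U) ∧
      cost x G ≤ mu (2 * x) lam / d + 2 * (M + 1) * C +
        Real.exp (-M) * (1 + 4 * s * d * ((e : ℝ) + 1) ^ (2 * t)) ^ e := by
  classical
  set N : ℝ := ((e : ℝ) + 1) ^ t with hNdef
  have hN : 0 < N := by positivity
  have hs1 : (1 : ℝ) ≤ s := by exact_mod_cast hs
  set ε : ℝ := 1 / (4 * s * N) with hεdef
  have hε : 0 < ε := by positivity
  set GD : Finset (Finset X) := univ.filter fun I => d ≤ dg x lam I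
  set ok : Finset X → Prop := fun V => psi x lam V ≤ N * d
  set 𝒰 := (ker ok (big lam ε) e).filter fun A => 1 / 2 ≤ tot w A
  obtain ⟨G, hG, hGc⟩ := cover_of_weights (x := x) hw
    (a := 1 / 2) (by norm_num) hM hx 𝒰 fun A hA => (mem_filter.1 hA).2
  refine ⟨GD ∪ G, fun U hUe hU hgood => ?_, ?_⟩
  · by_contra hno
    push Not at hno
    set A := ((big lam ε).filter (· ⊆ U)).biUnion id with hA
    have hAU : A ⊆ U := biUnion_subset.2 fun S hS => (mem_filter.1 hS).2
    have hcard : ∀ V ⊆ A, V.card ≤ e := fun V hV => (card_le_card (hV.trans hAU)).trans hUe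
    have hok : ∀ V ⊆ A, ok V := fun V hV => by
      refine (psi_le_card hx hl (d := d) fun I hI => ?_).trans ?_
      · by_contra h
        exact hno I (mem_union_left _ (mem_filter.2 ⟨mem_univ _, (not_le.1 h).le⟩))
          (hI.trans (hV.trans hAU))
      · refine mul_le_mul_of_nonneg_right ?_ hd.le
        refine le_trans (Nat.cast_le.2 (card_small_subsets V t)) ?_
        push_cast
        exact pow_le_pow_left₀ (by positivity) (by exact_mod_cast Nat.add_le_add_right (hcard V hV) 1) t
    have hAK : A ∈ ker ok (big lam ε) e := by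
      obtain ⟨V, hV, hVA, hd'⟩ := reach hok e
      rw [← hA] at hVA hd'
      rcases hd' with h | h
      · rwa [← eq_of_subset_of_card_le hVA ((hcard A Subset.rfl).trans h)]
      · rwa [← h]
    have hloss : 1 - 1 / (4 * s) ≤ tot lam A := by
      have hsplit := sum_sdiff (f := lam) (powerset_mono.2 hAU)
      have hsm : ∑ S ∈ U.powerset \ A.powerset, lam S ≤
          ∑ _S ∈ U.powerset.filter (fun S => S.card ≤ t), ε := by
        rw [← sum_filter_ne_zero (s := U.powerset \ A.powerset)]
        refine (sum_le_sum fun S hS => ?_).trans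
          (sum_le_sum_of_subset_of_nonneg (fun S hS => ?_) fun _ _ _ => hε.le)
        · simp only [mem_filter, mem_sdiff, mem_powerset] at hS
          by_contra hlt
          exact hS.1.2 (subset_biUnion_of_mem id
            (mem_filter.2 ⟨mem_filter.2 ⟨mem_univ _, (not_le.1 hlt).le⟩, hS.1.1⟩))
        · simp only [mem_filter, mem_sdiff, mem_powerset] at hS ⊢
          exact ⟨hS.1.1, hl.size S hS.2⟩
      rw [sum_const, nsmul_eq_mul] at hsm
      have h2 : ((U.powerset.filter fun S => S.card ≤ t).card : ℝ) * ε ≤ 1 / (4 * s) := by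
        calc _ ≤ N * ε := mul_le_mul_of_nonneg_right (by
              refine le_trans (Nat.cast_le.2 (card_small_subsets U t)) ?_
              push_cast
              exact pow_le_pow_left₀ (by positivity)
                (by exact_mod_cast Nat.add_le_add_right hUe 1) t) hε.le
          _ = _ := by rw [hεdef]; field_simp
      unfold tot at hU ⊢
      linarith
    have hwA : 1 / 2 ≤ tot w A := by
      rw [htot U A hgood hAU hok]
      have hu : (1 : ℝ) / (4 * s) ≤ 1 := (div_le_one (by positivity)).2 (by linarith)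
      refine le_trans ?_ (pow_le_pow_left₀ (by linarith) hloss s)
      have hb := one_add_mul_le_pow (a := -(1 / (4 * (s : ℝ)))) (by linarith) s
      have e1 : (s : ℝ) * -(1 / (4 * s)) = -(1 / 4) := by field_simp
      rw [e1, ← sub_eq_add_neg, ← sub_eq_add_neg] at hb
      linarith
    obtain ⟨B, hB, hBA⟩ := hG A (mem_filter.2 ⟨hAK, hwA⟩)
    exact hno B (mem_union_right _ hB) (hBA.trans hAU)
  · have hGD : cost x GD ≤ mu (2 * x) lam / d := by
      rw [le_div_iff₀ hd, ← sum_dg, cost, sum_mul]
      refine le_trans (sum_le_sum fun I hI => ?_) (sum_le_univ_sum_of_nonneg fun I =>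
        mul_nonneg (dg_nonneg hx hl I) (pow_nonneg hx _))
      rw [mul_comm]
      exact mul_le_mul_of_nonneg_right (mem_filter.1 hI).2 (pow_nonneg hx _)
    have hker : cost x 𝒰 ≤ (1 + 4 * s * d * ((e : ℝ) + 1) ^ (2 * t)) ^ e := by
      refine le_trans (sum_le_sum_of_subset_of_nonneg (filter_subset _ _)
        fun _ _ _ => pow_nonneg hx _) ?_
      refine le_trans (cost_ker hε (P := N * d) (by positivity) hx hl (fun V h => h) e) (le_of_eq ?_)
      rw [hεdef, hNdef, mul_comm 2 t, pow_mul]
      field_simp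
    have h2 : (M + 1) / (1 / 2) * mu x w ≤ 2 * (M + 1) * C := by
      rw [show (M + 1) / (1 / 2) = 2 * (M + 1) by ring]
      exact mul_le_mul_of_nonneg_left hC (by linarith)
    have h3 := mul_le_mul_of_nonneg_left hker (Real.exp_pos (-M)).le
    have h4 := cost_union_le hx GD G
    linarith

/-- **The step.** -/
theorem step (hx : 0 ≤ x) (hl : Small t lam) {e s : ℕ} (hs : 1 ≤ s) {θ d M : ℝ} (hθ : 0 ≤ θ)
    (hd : 0 < d) (hM : 0 ≤ M) {GB : Finset (Finset X)}
    (hGB : ∀ V : Finset X, V.card ≤ (s - 1) * t → θ < psi x lam V → ∃ B ∈ GB, B ⊆ V) :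
    ∃ G : Finset (Finset X),
      (∀ U : Finset X, U.card ≤ e → 1 ≤ tot lam U → ∃ B ∈ G, B ⊆ U) ∧
      cost x G ≤ cost x GB + mu (2 * x) lam / d + 2 * (M + 1) * θ ^ s +
        Real.exp (-M) * (1 + 4 * s * d * ((e : ℝ) + 1) ^ (2 * t)) ^ e := by
  obtain ⟨G, hG, hc⟩ := step_gen (e := e) hx hl hs hd hM (wt_nonneg (x := x) hl θ s)
    (mu_wt_le hθ hx hl s) (good := fun U => ∀ B ∈ GB, ¬B ⊆ U) fun U A hU hAU _ =>
      tot_wt hl s fun V hV hc => by
        by_contra hlt
        obtain ⟨B, hB, hBV⟩ := hGB V hc (not_le.1 hlt)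
        exact hU B hB (hBV.trans (hV.trans hAU))
  refine ⟨GB ∪ G, fun U hUe hU => ?_, ?_⟩
  · by_contra hno
    push Not at hno
    obtain ⟨B, hB, hBU⟩ := hG U hUe hU fun B hB => hno B (mem_union_left _ hB)
    exact hno B (mem_union_right _ hB) hBU
  · have := cost_union_le hx GB G
    linarith

/-- weights on the sets whose core lies in `V` -/
noncomputable def pureAt (cr : Finset X → Finset X) (lam : Finset X → ℝ) (V S : Finset X) : ℝ :=
  if cr S ⊆ V then lam S else 0

/-- weights of unions of `s` sampled sets, at most `b` of them adding to the core -/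
noncomputable def wb (x : ℝ) (cr : Finset X → Finset X) (lam : Finset X → ℝ) (θ Q : ℝ) :
    ℕ → ℕ → Finset X → ℝ
  | 0, _ => fun A => if A = ∅ then 1 else 0
  | s + 1, b => fun A => ∑ V, ∑ S, if V ∪ S = A then
      (if cr S ⊆ V then (if psi x (pureAt cr lam V) V ≤ θ then wb x cr lam θ Q s b V else 0)
        else (if psi x lam V ≤ Q ∧ 0 < b then wb x cr lam θ Q s (b - 1) V else 0)) * lam S
      else 0

variable {cr : Finset X → Finset X} {θ Q : ℝ}

theorem wb_nonneg (hl : Small t lam) : ∀ (s b : ℕ) (A : Finset X), 0 ≤ wb x cr lam θ Q s b A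
  | 0, b, A => by simp only [wb]; split <;> norm_num
  | s + 1, b, A => by
    simp only [wb]
    refine sum_nonneg fun V _ => sum_nonneg fun S _ => ?_
    have := hl.nonneg S
    have := wb_nonneg hl s b V
    have := wb_nonneg hl s (b - 1) V
    repeat' split
    all_goals positivity

theorem mu_wb_le (hθ : 0 < θ) (hQ : 0 ≤ Q) (hx : 0 ≤ x) (hl : Small t lam) :
    ∀ s b, mu x (wb x cr lam θ Q s b) ≤ θ ^ s * (1 + s * (Q / θ)) ^ b
  | 0, b => by simp [mu, wb]
  | s + 1, b => by
    classical
    set w0 := wb x cr lam θ Q s b with hw0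
    set w1 : Finset X → ℝ := fun V => if 0 < b then wb x cr lam θ Q s (b - 1) V else 0 with hw1
    have hstep : mu x (wb x cr lam θ Q (s + 1) b) ≤ θ * mu x w0 + Q * mu x w1 := by
      simp only [mu, wb, sum_mul]
      rw [sum_comm, mul_sum, mul_sum, ← sum_add_distrib]
      refine sum_le_sum fun V _ => ?_
      rw [sum_comm]
      simp only [ite_mul, zero_mul, sum_ite_eq, mem_univ, if_true]
      have hn0 : 0 ≤ w0 V := wb_nonneg (x := x) hl s b V
      have hn1 : 0 ≤ w1 V := by
        simp only [hw1]
        split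
        · exact wb_nonneg (x := x) hl s (b - 1) V
        · exact le_rfl
      have hV : ∀ S : Finset X, x ^ (V ∪ S).card = x ^ V.card * x ^ (S \ V).card := fun S => by
        rw [← pow_add, ← union_sdiff_self_eq_union, card_union_of_disjoint disjoint_sdiff]
      have hxV : 0 ≤ x ^ V.card := pow_nonneg hx _
      set p0 := if psi x (pureAt cr lam V) V ≤ θ then w0 V else 0 with hp0
      set p1 := if psi x lam V ≤ Q then w1 V else 0 with hp1
      have hp1n : 0 ≤ p1 := by rw [hp1]; split <;> first | exact hn1 | exact le_rfl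
      have b0 : p0 * psi x (pureAt cr lam V) V ≤ θ * w0 V := by
        rw [hp0]
        split
        · rename_i h; rw [mul_comm θ]; exact mul_le_mul_of_nonneg_left h hn0
        · rw [zero_mul]; exact mul_nonneg hθ.le hn0
      have b1 : p1 * psi x lam V ≤ Q * w1 V := by
        rw [hp1]
        split
        · rename_i h; rw [mul_comm Q]; exact mul_le_mul_of_nonneg_left h hn1
        · rw [zero_mul]; exact mul_nonneg hQ hn1
      calc _ ≤ ∑ S, x ^ V.card * (p0 * (pureAt cr lam V S * x ^ (S \ V).card) +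
            p1 * (lam S * x ^ (S \ V).card)) := by
            refine sum_le_sum fun S _ => ?_
            have hls : 0 ≤ lam S * x ^ (S \ V).card := mul_nonneg (hl.nonneg S) (pow_nonneg hx _)
            by_cases h : cr S ⊆ V
            · have := mul_nonneg hxV (mul_nonneg hp1n hls)
              simp only [pureAt, if_pos h]
              by_cases h' : psi x (pureAt cr lam V) V ≤ θ
              · rw [if_pos h', hp0, if_pos h', hV]; linarith
              · rw [if_neg h', hp0, if_neg h']; linarith
            · simp only [pureAt, if_neg h, zero_mul, mul_zero, zero_add, hp1, hw1]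
              by_cases h' : psi x lam V ≤ Q <;> by_cases h'' : 0 < b <;>
                simp only [h', h'', and_self, and_false, false_and, if_true, if_false] <;>
                first | (rw [hV]; linarith) | simp
        _ = x ^ V.card * (p0 * psi x (pureAt cr lam V) V + p1 * psi x lam V) := by
            simp only [psi, mul_sum, ← sum_add_distrib]
        _ ≤ x ^ V.card * (θ * w0 V + Q * w1 V) :=
            mul_le_mul_of_nonneg_left (add_le_add b0 b1) hxV
        _ = _ := by ring
    refine hstep.trans ?_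
    have hr : 0 ≤ Q / θ := div_nonneg hQ hθ.le
    set K : ℝ := 1 + s * (Q / θ) with hK
    have hK1 : 0 ≤ K := by positivity
    have i0 := mul_le_mul_of_nonneg_left (mu_wb_le hθ hQ hx hl s b) hθ.le
    rw [← hw0, ← hK] at i0
    have hK' : 1 + ((s + 1 : ℕ) : ℝ) * (Q / θ) = K + Q / θ := by rw [hK]; push_cast; ring
    rw [hK']
    cases b with
    | zero =>
      have : mu x w1 = 0 := by simp [mu, hw1]
      rw [this, mul_zero, add_zero]
      refine i0.trans (le_of_eq ?_)
      rw [pow_zero, pow_zero, pow_succ]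
      ring
    | succ c =>
      have e1 : w1 = wb x cr lam θ Q s c := by funext V; simp [hw1]
      rw [e1]
      have i1 := mul_le_mul_of_nonneg_left (mu_wb_le hθ hQ hx hl s c) hQ
      rw [← hK] at i1
      calc _ ≤ θ * (θ ^ s * K ^ (c + 1)) + Q * (θ ^ s * K ^ c) := add_le_add i0 i1
        _ = θ ^ (s + 1) * (K ^ c * (K + Q / θ)) := by field_simp; ring
        _ ≤ θ ^ (s + 1) * ((K + Q / θ) ^ c * (K + Q / θ)) :=
            mul_le_mul_of_nonneg_left (mul_le_mul_of_nonneg_right
              (pow_le_pow_left₀ hK1 (le_add_of_nonneg_right hr) c) (by positivity)) (by positivity)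
        _ = _ := by rw [pow_succ]; ring

theorem wb_eq (hl : Small t lam) (hsub : ∀ S, cr S ⊆ S) (hmono : ∀ S U, S ⊆ U → cr S ⊆ cr U)
    {A : Finset X} (hQA : ∀ V ⊆ A, psi x lam V ≤ Q) :
    ∀ (s : ℕ), (∀ V ⊆ A, V.card ≤ (s - 1) * t → psi x (pureAt cr lam V) V ≤ θ) →
      ∀ b : ℕ, ∀ W ⊆ A, (W ∩ cr A).card ≤ b → wb x cr lam θ Q s b W = wt x lam Q s W
  | 0, _, b, W, _, _ => rfl
  | s + 1, hp, b, W, hW, hb => by
    simp only [wb, wt]
    refine sum_congr rfl fun V _ => sum_congr rfl fun S _ => ?_
    by_cases h : V ∪ S = W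
    · rw [if_pos h, if_pos h]
      have hVW : V ⊆ W := h ▸ subset_union_left
      have hSW : S ⊆ W := h ▸ subset_union_right
      have hVA := hVW.trans hW
      have ih := wb_eq hl hsub hmono hQA s fun V' hV' hc =>
        hp V' hV' (hc.trans (Nat.mul_le_mul_right _ (by omega)))
      rw [if_pos (hQA V hVA)]
      by_cases hc : cr S ⊆ V
      · have he := ih b V hVA ((card_le_card (inter_subset_inter_right hVW)).trans hb)
        rw [if_pos hc]
        split
        · rw [he]
        · rename_i hno
          rcases eq_or_ne (wt x lam Q s V) 0 with h0 | h0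
          · rw [h0]
          · exact absurd (hp V hVA (by simpa using wt_card hl Q s V h0)) hno
      · have hlt : (V ∩ cr A).card < (W ∩ cr A).card := by
          obtain ⟨y, hy, hyV⟩ := not_subset.1 hc
          refine card_lt_card ⟨inter_subset_inter_right hVW, fun hh => hyV ?_⟩
          exact (mem_inter.1 (hh (mem_inter.2 ⟨hSW (hsub S hy),
            hmono S A (hSW.trans hW) hy⟩))).1
        rw [if_neg hc, if_pos ⟨hQA V hVA, by omega⟩, ih (b - 1) V hVA (by omega)]
    · rw [if_neg h, if_neg h]

/-- The step with a budget for sets that add to the core. -/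
theorem step_pure (hx : 0 ≤ x) (hl : Small t lam) (hsub : ∀ S, cr S ⊆ S)
    (hmono : ∀ S U, S ⊆ U → cr S ⊆ cr U) {e s : ℕ} (hs : 1 ≤ s) (u : ℕ) {d M : ℝ} (hθ : 0 < θ)
    (hd : 0 < d) (hM : 0 ≤ M) :
    ∃ G : Finset (Finset X),
      (∀ U : Finset X, U.card ≤ e → 1 ≤ tot lam U →
        ((cr U).card ≤ u ∧ ∀ V ⊆ U, V.card ≤ (s - 1) * t → psi x (pureAt cr lam V) V ≤ θ) →
          ∃ B ∈ G, B ⊆ U) ∧
      cost x G ≤ mu (2 * x) lam / d +
        2 * (M + 1) * (θ ^ s * (1 + s * (((e : ℝ) + 1) ^ t * d / θ)) ^ u) +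
        Real.exp (-M) * (1 + 4 * s * d * ((e : ℝ) + 1) ^ (2 * t)) ^ e :=
  step_gen hx hl hs hd hM (wb_nonneg (x := x) hl s u) (mu_wb_le hθ (by positivity) hx hl s u)
    fun U A hU hAU hok => by
      have h : ∀ W ⊆ A, wb x cr lam θ (((e : ℝ) + 1) ^ t * d) s u W =
          wt x lam (((e : ℝ) + 1) ^ t * d) s W := fun W hW =>
        wb_eq hl hsub hmono hok s (fun V hV hc => hU.2 V (hV.trans hAU) hc) u W hW
          (((card_le_card inter_subset_right).trans (card_le_card (hmono A U hAU))).trans hU.1)
      calc tot (wb x cr lam θ (((e : ℝ) + 1) ^ t * d) s u) A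
          = tot (wt x lam (((e : ℝ) + 1) ^ t * d) s) A :=
            sum_congr rfl fun W hW => h W (mem_powerset.1 hW)
        _ = _ := tot_wt hl s fun V hV _ => hok V hV

end Vale.Agent.P034
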