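import Vale.Agent.P034.Defs
import Vale.Agent.P034.Step

/-!
Iterating the step along a tower of sizes.
-/

namespace Vale.Agent.P034

open Finset

set_option linter.unusedSectionVars false

/-- exponents of the kernel sizes -/
def rr (t : ℕ) : ℕ → ℕ
  | 0 => 4 * t + 40
  | k + 1 => 2 ^ (rr t k / 2)

theorem two_mul_le_pow {n : ℕ} (h : 4 ≤ n) : 2 * n + 5 ≤ 2 ^ n := by
  induction n, h using Nat.le_induction with
  | base => norm_num
  | succ n h ih => rw [pow_succ]; omega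

theorem sq_le_pow {n : ℕ} (h : 12 ≤ n) : 4 * n ^ 2 ≤ 2 ^ n := by
  induction n, h using Nat.le_induction with
  | base => norm_num
  | succ n h ih => rw [pow_succ 2 n]; nlinarith

theorem rr_ge (t k : ℕ) : 4 * t + 40 + 4 * k ≤ rr t k := by
  induction k with
  | zero => simp [rr]
  | succ k ih =>
    show _ ≤ 2 ^ (rr t k / 2)
    have := two_mul_le_pow (n := rr t k / 2) (by omega)
    omega

theorem rr_succ_ge (t k : ℕ) : rr t k + 4 ≤ rr t (k + 1) := by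
  show _ ≤ 2 ^ (rr t k / 2)
  have := two_mul_le_pow (n := rr t k / 2) (by have := rr_ge t k; omega)
  omega

theorem bottom_num (t : ℕ) : 8 * t ^ 2 + 83 * t + 14 ≤ 2 ^ (t + 8) := by
  induction t with
  | zero => norm_num
  | succ t ih =>
    rw [show t + 1 + 8 = (t + 8) + 1 by ring, pow_succ 2 (t + 8)]
    rcases Nat.lt_or_ge t 2 with h | h
    · interval_cases t <;> norm_num
    · nlinarith

theorem exp_neg_le (n : ℕ) {y : ℝ} (h : (n : ℝ) ≤ y) : Real.exp (-y) ≤ (1 / 2) ^ n := by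
  calc Real.exp (-y) ≤ Real.exp (n * (-1)) := Real.exp_le_exp.2 (by linarith)
    _ = Real.exp (-1) ^ n := Real.exp_nat_mul _ _
    _ ≤ _ := pow_le_pow_left₀ (Real.exp_pos _).le (by
        rw [Real.exp_neg, inv_le_comm₀ (Real.exp_pos _) (by norm_num)]
        linarith [Real.exp_one_gt_two]) n

theorem kill {Y : ℝ} (hY : 0 ≤ Y) (m e R : ℕ) (h : Y ≤ 2 ^ m) :
    Real.exp (-((e * m + R : ℕ) : ℝ)) * Y ^ e ≤ (1 / 2) ^ R := by
  refine le_trans (mul_le_mul (exp_neg_le _ le_rfl) (pow_le_pow_left₀ hY h e) (by positivity)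
    (by positivity)) (le_of_eq ?_)
  rw [pow_add, ← pow_mul, mul_comm m e, mul_comm _ ((1 / 2 : ℝ) ^ R), mul_assoc, ← mul_pow]
  norm_num

theorem num_bot_Y (t : ℕ) :
    1 + 4 * ((1 : ℕ) : ℝ) * 1 * (((2 ^ rr t 0 : ℕ) : ℝ) + 1) ^ (2 * t) ≤
      2 ^ (2 * t * (rr t 0 + 1) + 3) := by
  set u := rr t 0
  have h1 : ((2 ^ u : ℕ) : ℝ) + 1 ≤ 2 ^ (u + 1) := by
    rw [pow_succ]; push_cast
    linarith [one_le_pow₀ (M₀ := ℝ) (a := 2) (n := u) (by norm_num)]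
  have h2 := pow_le_pow_left₀ (by positivity) h1 (2 * t)
  rw [← pow_mul, mul_comm (u + 1)] at h2
  rw [pow_add]
  push_cast at h2 ⊢
  linarith [one_le_pow₀ (M₀ := ℝ) (a := 2) (n := 2 * t * (u + 1)) (by norm_num)]

theorem num_bot_M (t : ℕ) :
    ((2 ^ rr t 0 * (2 * t * (rr t 0 + 1) + 3) + (t + 10) : ℕ) : ℝ) + 1 ≤ 2 ^ (5 * t + 48) := by
  have hu : rr t 0 = 4 * t + 40 := rfl
  rw [hu]
  have h1 := bottom_num t
  have h2 : 1 ≤ 2 ^ (4 * t + 40) := Nat.one_le_two_pow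
  have h3 : 2 ^ (4 * t + 40) * (2 * t * (4 * t + 40 + 1) + 3) + (t + 10) + 1 ≤
      2 ^ (5 * t + 48) := by
    rw [show 5 * t + 48 = (4 * t + 40) + (t + 8) by omega, pow_add 2 (4 * t + 40)]
    generalize 2 ^ (4 * t + 40) = A at *
    generalize 2 ^ (t + 8) = B at *
    nlinarith
  exact_mod_cast h3

theorem num_step_Y (t a b k : ℕ) :
    1 + 4 * ((2 ^ a / t + 1 : ℕ) : ℝ) * 2 ^ (k + 1) * (((2 ^ b : ℕ) : ℝ) + 1) ^ (2 * t) ≤
      2 ^ (a + k + 5 + 2 * t * (b + 1)) := by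
  have h1 : ((2 ^ b : ℕ) : ℝ) + 1 ≤ 2 ^ (b + 1) := by
    rw [pow_succ]; push_cast
    linarith [one_le_pow₀ (M₀ := ℝ) (a := 2) (n := b) (by norm_num)]
  have h2 : ((2 ^ a / t + 1 : ℕ) : ℝ) ≤ 2 ^ (a + 1) := by
    have := Nat.div_le_self (2 ^ a) t
    have h : 1 ≤ 2 ^ a := Nat.one_le_two_pow
    have h' : 2 ^ a / t + 1 ≤ 2 ^ (a + 1) := by rw [pow_succ]; omega
    exact_mod_cast h'
  have h3 := pow_le_pow_left₀ (by positivity) h1 (2 * t)
  rw [← pow_mul, mul_comm (b + 1)] at h3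
  have h4 : 4 * ((2 ^ a / t + 1 : ℕ) : ℝ) * 2 ^ (k + 1) * (((2 ^ b : ℕ) : ℝ) + 1) ^ (2 * t) ≤
      4 * 2 ^ (a + 1) * 2 ^ (k + 1) * 2 ^ (2 * t * (b + 1)) := by gcongr
  have h5 : (2 : ℝ) ^ (a + k + 5 + 2 * t * (b + 1)) =
      2 * (4 * 2 ^ (a + 1) * 2 ^ (k + 1) * 2 ^ (2 * t * (b + 1))) := by ring
  have h6 : (1 : ℝ) ≤ 4 * 2 ^ (a + 1) * 2 ^ (k + 1) * 2 ^ (2 * t * (b + 1)) := by
    have := one_le_pow₀ (M₀ := ℝ) (a := 2) (n := (a + 1) + (k + 1) + 2 * t * (b + 1)) (by norm_num)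
    rw [pow_add, pow_add] at this
    linarith
  linarith

theorem num_step_M {t a b k : ℕ} (h1 : 4 * t + 40 + 4 * k ≤ a) (h2 : a + 4 ≤ b) :
    ((2 ^ b * (a + k + 5 + 2 * t * (b + 1)) + (t + k + 11) : ℕ) : ℝ) + 1 ≤ 2 ^ (2 * b) := by
  have hsq := sq_le_pow (n := b) (by omega)
  have h0 : 1 ≤ 2 ^ b := Nat.one_le_two_pow
  have h3 : 2 ^ b * (a + k + 5 + 2 * t * (b + 1)) + (t + k + 11) + 1 ≤ 2 ^ (2 * b) := by
    rw [two_mul b, pow_add]
    have hm : (a + k + 5 + 2 * t * (b + 1)) + (t + k + 11) + 1 ≤ 4 * b ^ 2 := by nlinarith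
    generalize 2 ^ b = A at *
    nlinarith
  exact_mod_cast h3

theorem num_step_pow {t a k : ℕ} (ht : 1 ≤ t) (h1 : 4 * t + 40 + 4 * k ≤ a)
    (hb : a + 4 ≤ 2 ^ (a / 2)) :
    Real.exp (-(1 / 2) ^ (k + 1)) ^ (2 ^ a / t + 1) ≤
      (1 / 2) ^ (2 * 2 ^ (a / 2) + t + k + 12) := by
  rw [← Real.exp_nat_mul, mul_neg]
  refine exp_neg_le _ ?_
  set n := 2 * 2 ^ (a / 2) + t + k + 12 with hn
  have h1' : n ≤ 2 ^ (a / 2 + 2) := by rw [pow_add]; omega
  have h2 : n * 2 ^ (k + 1) * t ≤ 2 ^ a := by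
    calc n * 2 ^ (k + 1) * t ≤ 2 ^ (a / 2 + 2) * 2 ^ (k + 1) * 2 ^ t := by
          gcongr; exact Nat.lt_two_pow_self.le
      _ ≤ 2 ^ a := by
          rw [← pow_add, ← pow_add]; exact Nat.pow_le_pow_right (by norm_num) (by omega)
  have h3 : n * 2 ^ (k + 1) ≤ 2 ^ a / t + 1 :=
    ((Nat.le_div_iff_mul_le (by omega)).2 h2).trans (Nat.le_succ _)
  have h4 : (n : ℝ) * 2 ^ (k + 1) ≤ ((2 ^ a / t + 1 : ℕ) : ℝ) := by exact_mod_cast h3
  rw [one_div, inv_pow, ← div_eq_mul_inv, le_div_iff₀ (by positivity)]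
  exact h4

variable {X : Type*} [Fintype X] [DecidableEq X]
variable {x : ℝ} {t : ℕ}

/-- covering with cost bound -/
def Cov (x : ℝ) (t k : ℕ) (lam : Finset X → ℝ) : Prop :=
  ∃ G : Finset (Finset X),
    (∀ U : Finset X, U.card ≤ 2 ^ rr t k → 1 ≤ tot lam U → ∃ B ∈ G, B ⊆ U) ∧
    cost x G ≤ (1 / 2) ^ (t + 6) * (2 - (1 / 2) ^ k)

theorem bottom_level (hx : 0 ≤ x) {lam : Finset X → ℝ} (hl : Small t lam)
    (hμ : mu (2 * x) lam ≤ (1 / 2) ^ (8 * t + 70) * Real.exp 1) : Cov x t 0 lam := by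
  set ε0 : ℝ := (1 / 2) ^ (8 * t + 70) with hε0
  have hε : 0 < ε0 := by positivity
  have h3 : mu (2 * x) lam ≤ 3 * ε0 := by nlinarith [Real.exp_one_lt_d9]
  obtain ⟨G, hG, hc⟩ := step (e := 2 ^ rr t 0) (s := 1) hx hl le_rfl (θ := 8 * ε0) (d := 1)
    (M := ((2 ^ rr t 0 * (2 * t * (rr t 0 + 1) + 3) + (t + 10) : ℕ) : ℝ)) (by positivity) one_pos
    (Nat.cast_nonneg _) (GB := ∅) fun V hV hθ => by
      exfalso
      have hV' : V = ∅ := card_eq_zero.1 (by simpa using hV)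
      have : psi x lam ∅ ≤ mu (2 * x) lam := by
        refine le_trans (le_of_eq ?_) (mu_mono hx (by linarith) hl)
        simp [psi, mu]
      rw [hV'] at hθ
      linarith
  refine ⟨G, hG, hc.trans ?_⟩
  have hK := kill (by positivity) _ (2 ^ rr t 0) (t + 10) (num_bot_Y t)
  have hsmall : (2 : ℝ) ^ (5 * t + 48) * ε0 ≤ (1 / 2) ^ (t + 16) := by
    rw [hε0, show 8 * t + 70 = (5 * t + 48) + (3 * t + 22) by omega, pow_add (1 / 2 : ℝ) (5 * t + 48),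
      ← mul_assoc, ← mul_pow, show (2 : ℝ) * (1 / 2) = 1 by norm_num, one_pow, one_mul]
    exact pow_le_pow_of_le_one (by norm_num) (by norm_num) (by omega)
  have hbase : ε0 ≤ (1 / 2) ^ (t + 16) :=
    pow_le_pow_of_le_one (by norm_num) (by norm_num) (by omega)
  have hprod := mul_le_mul_of_nonneg_right (num_bot_M t) hε.le
  have hR2 : ((1 : ℝ) / 2) ^ (t + 10) = 2 ^ 6 * (1 / 2) ^ (t + 16) := by ring
  have hη : ((1 : ℝ) / 2) ^ (t + 6) = 2 ^ 10 * (1 / 2) ^ (t + 16) := by ring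
  have hc0 : cost x (∅ : Finset (Finset X)) = 0 := by simp [cost]
  simp only [pow_one, pow_zero, div_one] at hK ⊢
  linarith

theorem succ_level (hx : 0 ≤ x) (hx1 : x ≤ 1) (ht : 1 ≤ t) (k : ℕ)
    (ih : ∀ lam : Finset X → ℝ, Small t lam →
      mu (((k : ℝ) + 2) * x) lam ≤ (1 / 2) ^ (8 * t + 70) * Real.exp ((1 / 2) ^ k) → Cov x t k lam)
    {lam : Finset X → ℝ} (hl : Small t lam)
    (hμ : mu (((k : ℝ) + 3) * x) lam ≤
      (1 / 2) ^ (8 * t + 70) * Real.exp ((1 / 2) ^ (k + 1))) : Cov x t (k + 1) lam := by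
  set a := rr t k with ha
  set b := rr t (k + 1) with hb
  have hage := rr_ge t k
  have hab := rr_succ_ge t k
  set θ := Real.exp (-(1 / 2) ^ (k + 1)) with hθ
  have hθpos : 0 < θ := Real.exp_pos _
  have hl' : Small t fun I => gg x lam I / θ :=
    ⟨fun I => div_nonneg ((gg_small hx hx1 hl).nonneg I) hθpos.le,
      fun I hI => (gg_small hx hx1 hl).size I fun h0 => hI (by simp [h0])⟩
  obtain ⟨GB, hGB, hGBc⟩ := ih (fun I => gg x lam I / θ) hl' (by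
    have h1 : mu (((k : ℝ) + 2) * x) (fun I => gg x lam I / θ) =
        mu (((k : ℝ) + 2) * x) (gg x lam) / θ := by
      simp only [mu, sum_div]
      exact sum_congr rfl fun I _ => by ring
    rw [h1, div_le_iff₀ hθpos]
    refine (mu_gg (by positivity) hx hx1 hl).trans ?_
    have e2 : x + ((k : ℝ) + 2) * x = ((k : ℝ) + 3) * x := by ring
    rw [e2]
    refine hμ.trans (le_of_eq ?_)
    rw [hθ, mul_assoc, ← Real.exp_add, pow_succ]
    congr 2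
    ring)
  obtain ⟨G, hG, hc⟩ := step (e := 2 ^ b) (s := 2 ^ a / t + 1) hx hl (Nat.le_add_left 1 _) (θ := θ)
    (d := 2 ^ (k + 1))
    (M := ((2 ^ b * (a + k + 5 + 2 * t * (b + 1)) + (t + k + 11) : ℕ) : ℝ)) hθpos.le
    (by positivity) (Nat.cast_nonneg _) (GB := GB) fun V hV hlt => by
      refine hGB V (hV.trans ?_) ?_
      · rw [Nat.add_sub_cancel]
        exact Nat.div_mul_le_self _ _
      · show 1 ≤ ∑ S ∈ V.powerset, gg x lam S / θ
        rw [← sum_div, one_le_div hθpos]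
        exact hlt.le.trans (le_of_eq (tot_gg V).symm)
  refine ⟨G, hG, hc.trans ?_⟩
  have hK := kill (by positivity) _ (2 ^ b) (t + k + 11) (num_step_Y t a b k)
  have hM := num_step_M hage hab
  have hθs : θ ^ (2 ^ a / t + 1) ≤ (1 / 2) ^ (2 * b + t + k + 12) :=
    num_step_pow ht hage hab
  set z : ℝ := (1 / 2) ^ (t + k + 11) with hz
  set Mx : ℝ := ((2 ^ b * (a + k + 5 + 2 * t * (b + 1)) + (t + k + 11) : ℕ) : ℝ)
  have hMx : 0 ≤ Mx := Nat.cast_nonneg _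
  have hprod : 2 * (Mx + 1) * θ ^ (2 ^ a / t + 1) ≤ z := by
    calc 2 * (Mx + 1) * θ ^ (2 ^ a / t + 1) ≤ 2 * 2 ^ (2 * b) * (1 / 2) ^ (2 * b + t + k + 12) := by
          gcongr
      _ = z := by
        rw [hz, show 2 * b + t + k + 12 = (2 * b + 1) + (t + k + 11) by omega,
          pow_add (1 / 2 : ℝ) (2 * b + 1), ← mul_assoc, mul_comm (2 : ℝ) (2 ^ (2 * b)), ← pow_succ,
          ← mul_pow, show (2 : ℝ) * (1 / 2) = 1 by norm_num, one_pow, one_mul]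
  have hd : mu (2 * x) lam / 2 ^ (k + 1) ≤ z := by
    have h1 : mu (2 * x) lam ≤ 3 * (1 / 2) ^ (8 * t + 70) := by
      refine (mu_mono (by linarith) ?_ hl).trans (hμ.trans ?_)
      · exact mul_le_mul_of_nonneg_right (by linarith [Nat.cast_nonneg (α := ℝ) k]) hx
      · rw [mul_comm]
        refine mul_le_mul_of_nonneg_right ?_ (by positivity)
        have : Real.exp ((1 / 2) ^ (k + 1)) ≤ Real.exp 1 :=
          Real.exp_le_exp.2 (pow_le_one₀ (by norm_num) (by norm_num))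
        linarith [Real.exp_one_lt_d9]
    rw [div_le_iff₀ (by positivity), hz, show t + k + 11 = (t + 10) + (k + 1) by omega,
      pow_add _ (t + 10), mul_assoc, ← mul_pow, show (1 / 2 : ℝ) * 2 = 1 by norm_num, one_pow,
      mul_one]
    refine h1.trans ?_
    have e1 : ((1 : ℝ) / 2) ^ (8 * t + 70) ≤ (1 / 2) ^ (t + 12) :=
      pow_le_pow_of_le_one (by norm_num) (by norm_num) (by omega)
    have e2 : ((1 : ℝ) / 2) ^ (t + 10) = 4 * (1 / 2) ^ (t + 12) := by ring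
    linarith [show (0 : ℝ) ≤ (1 / 2) ^ (t + 12) from by positivity]
  have hη : (1 / 2 : ℝ) ^ (t + 6) * (2 - (1 / 2) ^ (k + 1)) =
      (1 / 2) ^ (t + 6) * (2 - (1 / 2) ^ k) + 16 * z := by
    rw [hz]; ring
  have hzpos : 0 ≤ z := by positivity
  linarith

theorem levels (hx : 0 ≤ x) (hx1 : x ≤ 1) (ht : 1 ≤ t) :
    ∀ (k : ℕ) (lam : Finset X → ℝ), Small t lam →
      mu (((k : ℝ) + 2) * x) lam ≤ (1 / 2) ^ (8 * t + 70) * Real.exp ((1 / 2) ^ k) →
      Cov x t k lam := by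
  intro k
  induction k with
  | zero => exact fun lam hl hμ => bottom_level hx hl (by simpa using hμ)
  | succ k ih =>
    intro lam hl hμ
    refine succ_level hx hx1 ht k ih hl ?_
    rwa [show (((k + 1 : ℕ) : ℝ) + 2) = (k : ℝ) + 3 by push_cast; ring] at hμ

end Vale.Agent.P034
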