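import Vale.Agent.P034.Cover

/-!
The fractional expectation threshold is at most a constant times the integral one.
-/

namespace Vale.Agent.P034

open Finset

variable {X : Type} [Fintype X] [DecidableEq X]

theorem lam_small {g : Finset X → ℝ} (hg : ∀ S, 0 ≤ g S) (t : ℕ) :
    Small t fun S => if S.card = t then 2 ^ (t + 2) * g S else 0 := by
  refine ⟨fun S => ?_, fun S hS => ?_⟩
  · have := hg S
    show (0 : ℝ) ≤ if S.card = t then 2 ^ (t + 2) * g S else 0
    split <;> positivity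
  · simp only [ne_eq, ite_eq_right_iff, not_forall] at hS
    exact hS.1.le

theorem lam_cost {g : Finset X → ℝ} (hg : ∀ S, 0 ≤ g S) {p : ℝ} (hp : 0 ≤ p)
    (hcost : ∑ S, g S * p ^ S.card ≤ 1 / 2) {t : ℕ} (ht : 1 ≤ t) :
    mu (2 * (p / 2 ^ 200)) (fun S => if S.card = t then 2 ^ (t + 2) * g S else 0) ≤
      (1 / 2) ^ (188 * t) := by
  calc mu (2 * (p / 2 ^ 200)) (fun S => if S.card = t then 2 ^ (t + 2) * g S else 0)
      ≤ ∑ S, (2 ^ (2 * t + 2) * (1 / 2) ^ (200 * t)) * (g S * p ^ S.card) := by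
        refine sum_le_sum fun S _ => ?_
        have := hg S
        show (if S.card = t then (2 : ℝ) ^ (t + 2) * g S else 0) *
          (2 * (p / 2 ^ 200)) ^ S.card ≤ _
        split_ifs with h
        · rw [h, div_eq_mul_inv, show ((2 : ℝ) ^ 200)⁻¹ = (1 / 2) ^ 200 by rw [one_div, inv_pow],
            mul_pow, mul_pow, ← pow_mul]
          exact le_of_eq (by ring)
        · rw [zero_mul]; positivity
    _ ≤ (2 ^ (2 * t + 2) * (1 / 2) ^ (200 * t)) * 1 := by
        rw [← mul_sum]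
        exact mul_le_mul_of_nonneg_left (hcost.trans (by norm_num)) (by positivity)
    _ ≤ 2 ^ (2 * t + 2) * (1 / 2) ^ ((2 * t + 2) + 188 * t) := by
        rw [mul_one]
        exact mul_le_mul_of_nonneg_left
          (pow_le_pow_of_le_one (by norm_num) (by norm_num) (by omega)) (by positivity)
    _ = _ := by
        rw [pow_add (1 / 2 : ℝ) (2 * t + 2), ← mul_assoc, ← mul_pow,
          show (2 : ℝ) * (1 / 2) = 1 by norm_num, one_pow, one_mul]

/-- an integral cover from a fractional one, at a scale smaller by a universal constant -/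
theorem exists_integral {g : Finset X → ℝ} (hg : ∀ S, 0 ≤ g S) {p : ℝ} (hp : 0 ≤ p) (hp1 : p ≤ 1)
    (hcost : ∑ S, g S * p ^ S.card ≤ 1 / 2) (F : Finset (Finset X))
    (hcov : ∀ H ∈ F, 1 ≤ ∑ S ∈ H.powerset, g S) :
    ∃ G : Finset (Finset X), (∀ H ∈ F, ∃ S ∈ G, S ⊆ H) ∧ cost (p / 2 ^ 200) G ≤ 1 / 2 := by
  classical
  set x := p / 2 ^ 200 with hx
  have hx0 : 0 ≤ x := div_nonneg hp (by positivity)
  have hx1 : x ≤ 1 := (div_le_one (by positivity)).2 (hp1.trans (one_le_pow₀ (by norm_num)))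
  set N := Fintype.card X
  set lam : ℕ → Finset X → ℝ := fun t S => if S.card = t then 2 ^ (t + 2) * g S else 0 with hlam
  have hcs : ∀ t ∈ Icc 1 N, ∃ G : Finset (Finset X),
      (∀ H : Finset X, 2 ≤ tot (lam t) H → ∃ B ∈ G, B ⊆ H) ∧
      cost x G ≤ 13 * (1 / 2) ^ (t + 6) := fun t ht => by
    have ht1 := (mem_Icc.1 ht).1
    refine cover_size hx0 hx1 ht1 (lam_small hg t) ?_ (lam_cost hg hp hcost ht1)
    simp only [hlam]
    rw [if_neg (by simp; omega)]
  choose G hG hGc using hcs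
  refine ⟨(Icc 1 N).attach.biUnion fun t => G t.1 t.2, fun H hH => ?_, ?_⟩
  · by_contra hno
    have hlt : ∀ t ∈ Icc 1 N,
        ∑ S ∈ H.powerset.filter (fun S => S.card = t), g S ≤ (1 / 2) ^ (t + 1) := by
      intro t ht
      by_contra h
      push Not at h
      have htot : 2 ≤ tot (lam t) H := by
        simp only [tot, hlam, ← sum_filter, ← mul_sum]
        have e : (2 : ℝ) ^ (t + 2) * (1 / 2) ^ (t + 1) = 2 := by
          rw [show t + 2 = (t + 1) + 1 by omega, pow_succ, mul_right_comm, ← mul_pow]; norm_num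
        nlinarith [mul_le_mul_of_nonneg_left h.le (pow_nonneg (zero_le_two (α := ℝ)) (t + 2))]
      obtain ⟨B, hB, hBH⟩ := hG t ht H htot
      exact hno ⟨B, mem_biUnion.2 ⟨⟨t, ht⟩, mem_attach _ _, hB⟩, hBH⟩
    have hge := hcov H hH
    have h0 : g ∅ ≤ 1 / 2 := by
      refine le_trans ?_ hcost
      refine le_trans (le_of_eq (by simp)) (single_le_sum (f := fun S => g S * p ^ S.card)
        (fun S _ => by have := hg S; positivity) (mem_univ ∅))
    have hsplit : ∑ S ∈ H.powerset, g S = g ∅ + ∑ t ∈ Icc 1 N,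
        ∑ S ∈ H.powerset.filter (fun S => S.card = t), g S := by
      rw [← add_sum_erase _ _ (empty_mem_powerset H)]
      congr 1
      rw [← sum_fiberwise_of_maps_to (g := Finset.card) (t := Icc 1 N) (fun S hS => ?_)]
      · refine sum_congr rfl fun t ht => sum_congr ?_ fun _ _ => rfl
        ext S
        simp only [mem_filter, mem_erase]
        refine ⟨fun h => ⟨h.1.2, h.2⟩, fun h => ⟨⟨fun h0 => ?_, h.1⟩, h.2⟩⟩
        rw [h0, card_empty] at h
        have := (mem_Icc.1 ht).1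
        omega
      · exact mem_Icc.2 ⟨(nonempty_iff_ne_empty.2 (mem_erase.1 hS).1).card_pos, card_le_univ _⟩
    have hgeo : ∀ n : ℕ, ∑ t ∈ Icc 1 n, ((1 : ℝ) / 2) ^ (t + 1) = 1 / 2 - (1 / 2) ^ (n + 1) := by
      intro n
      induction n with
      | zero => simp
      | succ n ih => rw [sum_Icc_succ_top (by omega), ih]; ring
    have hs := sum_le_sum hlt
    rw [hgeo N] at hs
    have : (0 : ℝ) < (1 / 2) ^ (N + 1) := by positivity
    linarith
  · calc cost x _ ≤ ∑ t ∈ (Icc 1 N).attach, cost x (G t.1 t.2) := cost_biUnion_le hx0 _ _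
      _ ≤ ∑ t ∈ (Icc 1 N).attach, 13 * (1 / 2) ^ (t.1 + 6) := sum_le_sum fun t _ => hGc t.1 t.2
      _ = ∑ t ∈ Icc 1 N, 13 * (1 / 2) ^ (t + 6) :=
          sum_attach (Icc 1 N) fun t => 13 * ((1 : ℝ) / 2) ^ (t + 6)
      _ ≤ 1 / 2 := by
          have hgeo : ∀ n : ℕ, ∑ t ∈ Icc 1 n, 13 * ((1 : ℝ) / 2) ^ (t + 6) =
              13 * ((1 / 2) ^ 6 - (1 / 2) ^ (n + 6)) := by
            intro n
            induction n with
            | zero => simp
            | succ n ih => rw [sum_Icc_succ_top (by omega), ih]; ring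
          rw [hgeo]
          have : (0 : ℝ) < (1 / 2) ^ (N + 6) := by positivity
          linarith

theorem qFrac_le (F : Finset (Finset X)) (hF : ∅ ∉ F) : qFrac F ≤ 2 ^ 200 * qInt F := by
  classical
  refine csSup_le ⟨0, le_rfl, zero_le_one, fun S => if S ∈ F then 1 else 0,
    fun S => ?_, fun H hH => ?_, ?_⟩ ?_
  · show (0 : ℝ) ≤ (if S ∈ F then 1 else 0) ∧ (if S ∈ F then (1 : ℝ) else 0) ≤ 1
    split <;> norm_num
  · refine le_trans (le_of_eq (if_pos hH).symm) (single_le_sum (f := fun S => if S ∈ F then (1 : ℝ) else 0)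
      (fun S _ => by split <;> norm_num) (mem_powerset_self H))
  · refine le_trans (le_of_eq (sum_eq_zero fun S _ => ?_)) (by norm_num)
    by_cases h : S ∈ F
    · rw [zero_pow (fun h0 => hF (card_eq_zero.1 h0 ▸ h)), mul_zero]
    · simp [h]
  rintro p ⟨hp, hp1, g, hg, hcov, hcost⟩
  obtain ⟨G, hG, hGc⟩ := exists_integral (fun S => (hg S).1) hp hp1 hcost F hcov
  have hmem : p / 2 ^ 200 ≤ qInt F := le_csSup ⟨1, fun y hy => hy.2.1⟩
    ⟨div_nonneg hp (by positivity),
      (div_le_one (by positivity)).2 (hp1.trans (one_le_pow₀ (by norm_num))), G, hG, hGc⟩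
  rwa [div_le_iff₀ (by positivity), mul_comm] at hmem

end Vale.Agent.P034
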