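import Vale.Agent.P034.Basic

/-!
Classes of sets by normalised degree, and the boosted weights on them.
-/

namespace Vale.Agent.P034

open Finset

set_option linter.unusedSectionVars false

/-- exponents of the thresholds -/
def pp (t : ℕ) : ℕ → ℕ
  | 0 => 0
  | 1 => t + 30
  | k + 2 => 2 ^ pp t (k + 1)

/-- thresholds -/
def thr (t k : ℕ) : ℕ := 2 ^ (8 * t * pp t k)

theorem pp_lt (t : ℕ) : ∀ k, pp t k < pp t (k + 1)
  | 0 => by show 0 < t + 30; omega
  | k + 1 => Nat.lt_two_pow_self

theorem pp_mono (t : ℕ) : Monotone (pp t) := monotone_nat_of_le_succ fun k => (pp_lt t k).le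

theorem pp_ge (t : ℕ) : ∀ k, t + 30 + k ≤ pp t (k + 1)
  | 0 => le_rfl
  | k + 1 => by have := pp_ge t k; have := pp_lt t (k + 1); omega

theorem thr_pos (t k : ℕ) : 0 < thr t k := Nat.pow_pos (by norm_num)

theorem thr_mono (t : ℕ) : Monotone (thr t) := fun _ _ h =>
  Nat.pow_le_pow_right (by norm_num) (Nat.mul_le_mul_left _ (pp_mono t h))

variable {X : Type*} [Fintype X] [DecidableEq X]
variable {x : ℝ} {t : ℕ} {lam : Finset X → ℝ}

/-- degree at least the `k`th threshold; nothing qualifies for `k = 0` -/
def Lo (x : ℝ) (t : ℕ) (lam : Finset X → ℝ) (k : ℕ) (I : Finset X) : Prop :=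
  1 ≤ k ∧ I ≠ ∅ ∧ 1 / (thr t k : ℝ) ≤ dg x lam I

/-- the `k`th class -/
def Cls (x : ℝ) (t : ℕ) (lam : Finset X → ℝ) (k : ℕ) (I : Finset X) : Prop :=
  Lo x t lam k I ∧ ¬Lo x t lam (k - 1) I

noncomputable instance decLo (k : ℕ) (I : Finset X) : Decidable (Lo x t lam k I) :=
  Classical.propDecidable _

noncomputable instance decCls (k : ℕ) (I : Finset X) : Decidable (Cls x t lam k I) :=
  Classical.propDecidable _

theorem Lo.mono {k m : ℕ} {I : Finset X} (h : Lo x t lam k I) (hkm : k ≤ m) : Lo x t lam m I := by
  refine ⟨h.1.trans hkm, h.2.1, le_trans ?_ h.2.2⟩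
  exact one_div_le_one_div_of_le (by exact_mod_cast thr_pos t k) (by exact_mod_cast thr_mono t hkm)

theorem not_lo_zero {I : Finset X} : ¬Lo x t lam 0 I := fun h => absurd h.1 (by omega)

theorem Cls.pos {k : ℕ} {I : Finset X} (h : Cls x t lam k I) : 1 ≤ k := h.1.1

theorem Cls.lt_of_not_lo {k m : ℕ} {I : Finset X} (h : Cls x t lam k I) (hm : ¬Lo x t lam m I) :
    m < k := by
  by_contra hc
  exact hm (h.1.mono (not_lt.1 hc))

theorem Cls.unique {k m : ℕ} {I : Finset X} (h : Cls x t lam k I) (h' : Cls x t lam m I) :
    k = m := by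
  have := h.pos
  have := h'.pos
  rcases lt_trichotomy k m with hh | hh | hh
  · exact absurd (h.1.mono (by omega)) h'.2
  · exact hh
  · exact absurd (h'.1.mono (by omega)) h.2

theorem exists_cls {k : ℕ} {I : Finset X} (h : Lo x t lam k I) :
    ∃ m, m ≤ k ∧ Cls x t lam m I := by
  induction k with
  | zero => exact absurd h not_lo_zero
  | succ k ih =>
    by_cases hk : Lo x t lam k I
    · obtain ⟨m, hm, hc⟩ := ih hk
      exact ⟨m, hm.trans (Nat.le_succ k), hc⟩
    · exact ⟨k + 1, le_rfl, h, by simpa using hk⟩

/-- union of the subsets that are low at level `j` -/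
noncomputable def lcore (x : ℝ) (t : ℕ) (lam : Finset X → ℝ) (j : ℕ) (I : Finset X) : Finset X :=
  (I.powerset.filter fun L => Lo x t lam j L).biUnion id

theorem lcore_subset (j : ℕ) (I : Finset X) : lcore x t lam j I ⊆ I :=
  biUnion_subset.2 fun _ hL => mem_powerset.1 (mem_filter.1 hL).1

theorem subset_lcore {j : ℕ} {I L : Finset X} (hL : L ⊆ I) (h : Lo x t lam j L) :
    L ⊆ lcore x t lam j I :=
  subset_biUnion_of_mem id (mem_filter.2 ⟨mem_powerset.2 hL, h⟩)

open Classical in
/-- union of the subsets in lower classes than `I` -/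
noncomputable def below (x : ℝ) (t : ℕ) (lam : Finset X → ℝ) (I : Finset X) : Finset X :=
  (I.powerset.filter fun L => ∃ m, Lo x t lam m L ∧ ¬Lo x t lam m I).biUnion id

theorem below_subset (I : Finset X) : below x t lam I ⊆ I := by
  classical exact biUnion_subset.2 fun _ hL => mem_powerset.1 (mem_filter.1 hL).1

theorem below_eq {k : ℕ} {I : Finset X} (h : Cls x t lam k I) :
    below x t lam I = lcore x t lam (k - 1) I := by
  classical
  unfold below lcore
  congr 1
  refine filter_congr fun L _ => ⟨?_, fun hL => ⟨k - 1, hL, h.2⟩⟩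
  rintro ⟨m, hm, hmI⟩
  have := h.lt_of_not_lo hmI
  exact hm.mono (by omega)

/-- `J` may be charged for `I` -/
def Vd (x : ℝ) (t : ℕ) (lam : Finset X → ℝ) (I J : Finset X) : Prop :=
  J ⊂ I ∧ ∃ k, Cls x t lam k I ∧ Lo x t lam (k - 1) J ∧ lcore x t lam (k - 2) I ⊆ J

noncomputable instance decVd (I J : Finset X) : Decidable (Vd x t lam I J) :=
  Classical.propDecidable _

/-- the boosted weights -/
noncomputable def gw (x : ℝ) (t : ℕ) (lam : Finset X → ℝ) (J : Finset X) : ℝ :=
  dg x lam J + 32 * ∑ I : Finset X,
    if h : J ⊂ I then (if Vd x t lam I J then gw x t lam I * x ^ (I.card - J.card) else 0) else 0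
  termination_by Fintype.card X - J.card
  decreasing_by
    have h1 := card_lt_card h
    have h2 := card_le_univ I
    omega

theorem gw_eq (J : Finset X) : gw x t lam J = dg x lam J + 32 * ∑ I : Finset X,
    if Vd x t lam I J then gw x t lam I * x ^ (I.card - J.card) else 0 := by
  rw [gw]
  congr 2
  refine sum_congr rfl fun I _ => ?_
  by_cases h : Vd x t lam I J
  · rw [dif_pos h.1]
  · simp [h]

theorem gw_nonneg (hx : 0 ≤ x) (hl : Small t lam) (J : Finset X) : 0 ≤ gw x t lam J := by
  classical
  induction hn : Fintype.card X - J.card using Nat.strong_induction_on generalizing J with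
  | _ n ih =>
    rw [gw_eq]
    refine add_nonneg (dg_nonneg hx hl J) (mul_nonneg (by norm_num) (sum_nonneg fun I _ => ?_))
    split
    · rename_i h
      have h1 := card_lt_card h.1
      have h2 := card_le_univ I
      exact mul_nonneg (ih _ (by omega) I rfl) (pow_nonneg hx _)
    · exact le_rfl

theorem gw_small (hx : 0 ≤ x) (hl : Small t lam) : Small t (gw x t lam) := by
  classical
  refine ⟨gw_nonneg hx hl, fun J => ?_⟩
  induction hn : Fintype.card X - J.card using Nat.strong_induction_on generalizing J with
  | _ n ih =>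
    intro hJ
    by_contra hc
    refine hJ ?_
    rw [gw_eq]
    have h0 : dg x lam J = 0 := sum_eq_zero fun S _ => by
      split
      · rename_i h
        rw [show lam S = 0 by
          by_contra h'
          exact hc ((card_le_card h).trans (hl.size S h')), zero_mul]
      · rfl
    rw [h0, zero_add, sum_eq_zero, mul_zero]
    intro I _
    split
    · rename_i h
      have h1 := card_lt_card h.1
      have h2 := card_le_univ I
      have hI : gw x t lam I = 0 := by
        by_contra h'
        exact hc (h1.le.trans (ih _ (by omega) I rfl h'))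
      rw [hI, zero_mul]
    · rfl

theorem dg_le_gw (hx : 0 ≤ x) (hl : Small t lam) (J : Finset X) : dg x lam J ≤ gw x t lam J := by
  classical
  rw [gw_eq]
  exact le_add_of_nonneg_right (mul_nonneg (by norm_num) (sum_nonneg fun I _ => by
    have := gw_nonneg hx hl I
    split <;> positivity))

/-- the charging exponent -/
noncomputable def pot (x : ℝ) (t : ℕ) (lam : Finset X → ℝ) (I : Finset X) : ℕ :=
  I.card + (below x t lam I).card

theorem sum_pot_le (I : Finset X) {𝒥 : Finset (Finset X)} (h : ∀ J ∈ 𝒥, Vd x t lam I J) :
    64 * ∑ J ∈ 𝒥, (64 : ℝ) ^ pot x t lam J ≤ (64 : ℝ) ^ pot x t lam I := by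
  classical
  rcases 𝒥.eq_empty_or_nonempty with rfl | ⟨J0, hJ0⟩
  · simp
  obtain ⟨-, k, hk, -, -⟩ := h J0 hJ0
  set C1 := lcore x t lam (k - 1) I
  set C2 := lcore x t lam (k - 2) I
  have h21 : C2 ⊆ C1 := biUnion_subset.2 fun L hL => subset_lcore
    (mem_powerset.1 (mem_filter.1 hL).1) ((mem_filter.1 hL).2.mono (by omega))
  have hmap : ∀ J ∈ 𝒥, J.card < I.card ∧ C2 ⊆ J ∧ J ⊆ C1 ∧ (below x t lam J).card ≤ C2.card := by
    intro J hJ
    obtain ⟨hss, k', hk', hlo, hc⟩ := h J hJ
    obtain rfl := hk.unique hk'
    refine ⟨card_lt_card hss, hc, subset_lcore hss.subset hlo, card_le_card (biUnion_subset.2 ?_)⟩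
    intro L hL
    simp only [mem_filter, mem_powerset] at hL
    obtain ⟨hLJ, m, hm, hmJ⟩ := hL
    have : m < k - 1 := by
      by_contra hcon
      exact hmJ (hlo.mono (not_lt.1 hcon))
    exact subset_lcore (hLJ.trans hss.subset) (hm.mono (by omega))
  set f := (C1 \ C2).card
  have hf : C2.card + f = C1.card := by
    have := card_sdiff_add_card_eq_card h21
    omega
  have hcount : 𝒥.card ≤ 2 ^ f := by
    rw [← card_powerset]
    refine card_le_card_of_injOn (fun J => J \ C2)
      (fun J hJ => mem_powerset.2 (sdiff_subset_sdiff (hmap J hJ).2.2.1 subset_rfl)) ?_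
    intro J hJ K hK e
    have e' : J \ C2 = K \ C2 := e
    calc J = J \ C2 ∪ C2 := (sdiff_union_of_subset (hmap J hJ).2.1).symm
      _ = K \ C2 ∪ C2 := by rw [e']
      _ = K := sdiff_union_of_subset (hmap K hK).2.1
  have hterm : ∀ J ∈ 𝒥, (64 : ℝ) * 2 ^ f * 64 ^ pot x t lam J ≤ 64 ^ pot x t lam I := by
    intro J hJ
    obtain ⟨h1, -, -, h4⟩ := hmap J hJ
    have hI : pot x t lam I = I.card + C1.card := by rw [pot, below_eq hk]
    calc (64 : ℝ) * 2 ^ f * 64 ^ pot x t lam J ≤ 64 ^ 1 * 64 ^ f * 64 ^ pot x t lam J := by
          rw [pow_one]; gcongr; norm_num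
      _ ≤ 64 ^ pot x t lam I := by
          rw [← pow_add, ← pow_add]
          refine pow_le_pow_right₀ (by norm_num) ?_
          unfold pot at hI ⊢
          omega
  have hs := sum_le_sum hterm
  rw [← mul_sum, sum_const, nsmul_eq_mul] at hs
  have hc : (𝒥.card : ℝ) ≤ 2 ^ f := by exact_mod_cast hcount
  have h2 : (0 : ℝ) < 2 ^ f := by positivity
  have hnn : (0 : ℝ) ≤ 64 ^ pot x t lam I := by positivity
  nlinarith [mul_le_mul_of_nonneg_right hc hnn]

theorem mu_gw_le (hx : 0 ≤ x) (hl : Small t lam) :
    mu x (gw x t lam) ≤ 2 * 64 ^ (2 * t) * mu (2 * x) lam := by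
  classical
  set F := ∑ J : Finset X, gw x t lam J * x ^ J.card * (64 : ℝ) ^ pot x t lam J with hF
  have hgn := gw_nonneg (X := X) hx hl
  have hmu : mu x (gw x t lam) ≤ F := sum_le_sum fun J _ =>
    le_mul_of_one_le_right (mul_nonneg (hgn J) (pow_nonneg hx _)) (one_le_pow₀ (by norm_num))
  have hD : ∑ J : Finset X, dg x lam J * x ^ J.card * (64 : ℝ) ^ pot x t lam J ≤
      64 ^ (2 * t) * mu (2 * x) lam := by
    rw [← sum_dg, mul_sum]
    refine sum_le_sum fun J _ => ?_
    rw [mul_comm ((64 : ℝ) ^ (2 * t))]
    rcases eq_or_ne (dg x lam J) 0 with h0 | h0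
    · simp [h0]
    refine mul_le_mul_of_nonneg_left (pow_le_pow_right₀ (by norm_num) ?_)
      (mul_nonneg (dg_nonneg hx hl J) (pow_nonneg hx _))
    obtain ⟨S, -, hS⟩ := exists_ne_zero_of_sum_ne_zero h0
    by_cases h : J ⊆ S
    · rw [if_pos h] at hS
      have h1 := (card_le_card h).trans (hl.size S (left_ne_zero_of_mul hS))
      have h2 := card_le_card (below_subset (x := x) (t := t) (lam := lam) J)
      unfold pot
      omega
    · simp [h] at hS
  have hrec : F ≤ ∑ J : Finset X, dg x lam J * x ^ J.card * (64 : ℝ) ^ pot x t lam J + F / 2 := by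
    conv_lhs => rw [hF]
    rw [← sub_le_iff_le_add', ← sum_sub_distrib]
    calc ∑ J : Finset X, (gw x t lam J * x ^ J.card * (64 : ℝ) ^ pot x t lam J -
          dg x lam J * x ^ J.card * (64 : ℝ) ^ pot x t lam J)
        = ∑ I : Finset X, 32 * (gw x t lam I * x ^ I.card *
            ∑ J ∈ univ.filter (fun J => Vd x t lam I J), (64 : ℝ) ^ pot x t lam J) := by
          conv_lhs => enter [2, J]; rw [gw_eq]
          simp only [add_mul, add_sub_cancel_left, mul_sum, sum_mul, sum_filter]
          rw [sum_comm]
          refine sum_congr rfl fun I _ => sum_congr rfl fun J _ => ?_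
          by_cases h : Vd x t lam I J
          · have hc := Nat.sub_add_cancel (card_lt_card h.1).le
            rw [if_pos h, if_pos h]
            conv_rhs => rw [← hc, pow_add]
            ring
          · rw [if_neg h, if_neg h]; ring
      _ ≤ ∑ I : Finset X, gw x t lam I * x ^ I.card * (64 : ℝ) ^ pot x t lam I / 2 := by
          refine sum_le_sum fun I _ => ?_
          have h := mul_le_mul_of_nonneg_left
            (sum_pot_le (x := x) (t := t) (lam := lam) I (𝒥 := univ.filter fun J => Vd x t lam I J)
              fun J hJ => (mem_filter.1 hJ).2)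
            (mul_nonneg (hgn I) (pow_nonneg hx I.card))
          linarith
      _ = F / 2 := by rw [hF, sum_div]
  linarith

theorem sum_above_le (hx : 0 ≤ x) (ht : 1 ≤ t) (hl : Small t lam) (J : Finset X) :
    (∑ I : Finset X, if J ⊆ I then gw x t lam I * x ^ (I.card - J.card) else 0) ≤
      2 * (256 * (t : ℝ)) ^ t * dg x lam J := by
  classical
  set K : ℝ := 128 * t with hK
  have ht' : (1 : ℝ) ≤ t := by exact_mod_cast ht
  have hK1 : 1 ≤ K := by rw [hK]; linarith
  have hgn := gw_nonneg (X := X) hx hl
  set above : Finset (Finset X) := univ.filter fun I => J ⊆ I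
  set F := ∑ I ∈ above, gw x t lam I * x ^ (I.card - J.card) * K ^ (I.card - J.card) with hF
  have h1 : (∑ I : Finset X, if J ⊆ I then gw x t lam I * x ^ (I.card - J.card) else 0) ≤ F := by
    rw [← sum_filter]
    exact sum_le_sum fun I _ =>
      le_mul_of_one_le_right (mul_nonneg (hgn I) (pow_nonneg hx _)) (one_le_pow₀ hK1)
  have hpow : ∀ S : Finset X, J ⊆ S → ∑ I ∈ above.filter (fun I => I ⊆ S),
      K ^ (I.card - J.card) = (K + 1) ^ (S.card - J.card) := by
    intro S hS
    rw [← card_sdiff_of_subset hS]
    calc ∑ I ∈ above.filter (fun I => I ⊆ S), K ^ (I.card - J.card)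
        = ∑ U ∈ (S \ J).powerset, K ^ U.card * (1 : ℝ) ^ ((S \ J).card - U.card) := by
          refine Finset.sum_nbij' (fun I => I \ J) (fun U => J ∪ U) ?_ ?_ ?_ ?_ ?_
          · intro I hI
            simp only [above, mem_filter, mem_univ, true_and] at hI
            exact mem_coe.2 (mem_powerset.2 (sdiff_subset_sdiff hI.2 subset_rfl))
          · intro U hU
            simp only [above, mem_filter, mem_univ, true_and]
            exact ⟨subset_union_left,
              union_subset hS ((mem_powerset.1 (mem_coe.1 hU)).trans sdiff_subset)⟩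
          · intro I hI
            simp only [above, mem_filter, mem_univ, true_and] at hI
            exact union_sdiff_of_subset hI.1
          · intro U hU
            exact union_sdiff_cancel_left
              (disjoint_of_subset_right (mem_powerset.1 (mem_coe.1 hU)) disjoint_sdiff)
          · intro I hI
            simp only [above, mem_filter, mem_univ, true_and] at hI
            rw [one_pow, mul_one, card_sdiff_of_subset hI.1]
      _ = _ := sum_pow_mul_eq_add_pow _ _ _
  have hrec : F ≤ ∑ I ∈ above, dg x lam I * x ^ (I.card - J.card) * K ^ (I.card - J.card) + F / 2 := by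
    conv_lhs => rw [hF]
    rw [← sub_le_iff_le_add', ← sum_sub_distrib]
    calc ∑ I ∈ above, (gw x t lam I * x ^ (I.card - J.card) * K ^ (I.card - J.card) -
          dg x lam I * x ^ (I.card - J.card) * K ^ (I.card - J.card))
        = ∑ I ∈ above, ∑ S : Finset X, (32 * if Vd x t lam S I then
            gw x t lam S * x ^ (S.card - I.card) else 0) *
              x ^ (I.card - J.card) * K ^ (I.card - J.card) := by
          refine sum_congr rfl fun I _ => ?_
          rw [gw_eq, add_mul, add_mul, add_sub_cancel_left, mul_sum, sum_mul, sum_mul]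
      _ ≤ ∑ S ∈ above, gw x t lam S * x ^ (S.card - J.card) * K ^ (S.card - J.card) / 2 := by
          rw [sum_comm, ← sum_filter_add_sum_filter_not univ (fun S => J ⊆ S)]
          rw [sum_eq_zero (s := univ.filter fun S => ¬J ⊆ S), add_zero]
          · refine sum_le_sum fun S hS => ?_
            have hJS : J ⊆ S := (mem_filter.1 hS).2
            set c := 32 * (gw x t lam S * x ^ (S.card - J.card))
            have hc0 : 0 ≤ c := by have := hgn S; positivity
            calc ∑ I ∈ above, (32 * if Vd x t lam S I then gw x t lam S * x ^ (S.card - I.card)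
                  else 0) * x ^ (I.card - J.card) * K ^ (I.card - J.card)
                ≤ ∑ I ∈ (above.filter fun I => I ⊆ S).erase S, c * K ^ (I.card - J.card) := by
                  refine le_trans (le_of_eq (sum_subset ((erase_subset _ _).trans (filter_subset _ _))
                    fun I hI hI' => ?_).symm) (sum_le_sum fun I hI => ?_)
                  · rw [if_neg fun h : Vd x t lam S I =>
                      hI' (mem_erase.2 ⟨h.1.ne, mem_filter.2 ⟨hI, h.1.subset⟩⟩)]
                    ring
                  have hJI : J ⊆ I := (mem_filter.1 (mem_filter.1 (mem_erase.1 hI).2).1).2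
                  by_cases h : Vd x t lam S I
                  · rw [if_pos h]
                    refine le_of_eq ?_
                    have := card_le_card hJI
                    have := card_lt_card h.1
                    simp only [c]
                    rw [show S.card - J.card = (S.card - I.card) + (I.card - J.card) by omega,
                      pow_add]
                    ring
                  · rw [if_neg h, mul_zero, zero_mul, zero_mul]
                    exact mul_nonneg hc0 (pow_nonneg (le_trans zero_le_one hK1) _)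
              _ = c * ((K + 1) ^ (S.card - J.card) - K ^ (S.card - J.card)) := by
                  rw [← mul_sum]
                  congr 1
                  have hmem : S ∈ above.filter (fun I => I ⊆ S) := mem_filter.2 ⟨hS, subset_rfl⟩
                  rw [eq_sub_iff_add_eq, sum_erase_add _ _ hmem, hpow S hJS]
              _ ≤ _ := by
                  rcases eq_or_ne (gw x t lam S) 0 with h0 | h0
                  · simp [c, h0]
                  have hn : ((S.card - J.card : ℕ) : ℝ) ≤ t := by
                    exact_mod_cast (Nat.sub_le _ _).trans ((gw_small hx hl).size S h0)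
                  have hb := one_add_mul_le_pow (a := -(1 / (K + 1))) (by
                    have : 1 / (K + 1) ≤ 1 := (div_le_one (by linarith)).2 (by linarith)
                    linarith) (S.card - J.card)
                  set n := S.card - J.card
                  have e1 : 1 + -(1 / (K + 1)) = K / (K + 1) := by field_simp; ring
                  rw [e1, div_pow, le_div_iff₀ (by positivity)] at hb
                  have h64 : (n : ℝ) * (1 / (K + 1)) ≤ 1 / 128 := by
                    rw [mul_one_div, div_le_div_iff₀ (by linarith) (by norm_num), hK]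
                    linarith
                  have hpos : (0 : ℝ) ≤ (K + 1) ^ n := by positivity
                  have hg0 := hgn S
                  have hmain : (K + 1) ^ n - K ^ n ≤ K ^ n / 64 := by nlinarith
                  refine (mul_le_mul_of_nonneg_left hmain hc0).trans (le_of_eq ?_)
                  simp only [c]
                  ring
          · intro S hS
            refine sum_eq_zero fun I hI => ?_
            rw [if_neg fun h : Vd x t lam S I => (mem_filter.1 hS).2
              ((mem_filter.1 hI).2.trans h.1.subset)]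
            ring
      _ = F / 2 := by rw [hF, sum_div]
  have hD : ∑ I ∈ above, dg x lam I * x ^ (I.card - J.card) * K ^ (I.card - J.card) ≤
      (256 * (t : ℝ)) ^ t * dg x lam J := by
    unfold dg
    simp only [sum_mul, mul_sum]
    rw [sum_comm]
    refine sum_le_sum fun S _ => ?_
    simp only [ite_mul, zero_mul, mul_ite, mul_zero]
    rw [← sum_filter]
    have hnn := hl.nonneg S
    by_cases hS : J ⊆ S
    · rw [if_pos hS]
      rcases eq_or_ne (lam S) 0 with h0 | h0
      · simp [h0]
      calc ∑ I ∈ above.filter (fun I => I ⊆ S),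
            lam S * x ^ (S.card - I.card) * x ^ (I.card - J.card) * K ^ (I.card - J.card)
          = lam S * x ^ (S.card - J.card) * (K + 1) ^ (S.card - J.card) := by
            rw [← hpow S hS, mul_sum]
            refine sum_congr rfl fun I hI => ?_
            simp only [above, mem_filter, mem_univ, true_and] at hI
            have := card_le_card hI.1
            have := card_le_card hI.2
            rw [show S.card - J.card = (S.card - I.card) + (I.card - J.card) by omega, pow_add]
            ring
        _ ≤ lam S * x ^ (S.card - J.card) * (256 * (t : ℝ)) ^ t := by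
            refine mul_le_mul_of_nonneg_left ?_ (mul_nonneg hnn (pow_nonneg hx _))
            refine (pow_le_pow_left₀ (by linarith) (by rw [hK]; linarith) _).trans
              (pow_le_pow_right₀ (by linarith) ((Nat.sub_le _ _).trans (hl.size S h0)))
        _ = _ := by ring
    · rw [if_neg hS, sum_eq_zero]
      intro I hI
      simp only [above, mem_filter, mem_univ, true_and] at hI
      exact absurd (hI.1.trans hI.2) hS
  linarith

end Vale.Agent.P034
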