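import Vale.Agent.P034.Levels
import Vale.Agent.P034.Nodes

/-!
Arithmetic of the parameters used for the classes `k ≥ 2`.
-/

namespace Vale.Agent.P034

open Finset

theorem sq64_le_pow {n : ℕ} (h : 15 ≤ n) : 64 * n ^ 2 ≤ 2 ^ n := by
  induction n, h using Nat.le_induction with
  | base => norm_num
  | succ n h ih => rw [pow_succ 2 n]; nlinarith

theorem u_le {t : ℕ} : ∀ j, t * thr t j + 2 ≤ 2 ^ pp t (j + 1)
  | 0 => by
    show t * 2 ^ (8 * t * 0) + 2 ≤ 2 ^ (t + 30)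
    have h1 := Nat.lt_two_pow_self (n := t)
    have h2 : 2 ^ t * 2 ^ 30 = 2 ^ (t + 30) := (pow_add 2 t 30).symm
    simp only [mul_zero, pow_zero, mul_one]
    omega
  | i + 1 => by
    show t * 2 ^ (8 * t * pp t (i + 1)) + 2 ≤ 2 ^ 2 ^ pp t (i + 1)
    have hge := pp_ge t i
    set Q := pp t (i + 1)
    have h0 := sq64_le_pow (n := Q) (by omega)
    have h1 : t + 8 * t * Q + 2 ≤ 2 ^ Q := by nlinarith
    refine le_trans ?_ (Nat.pow_le_pow_right (by norm_num) h1)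
    have ht := Nat.lt_two_pow_self (n := t)
    have hB : 1 ≤ 2 ^ (8 * t * Q) := Nat.one_le_two_pow
    rw [pow_add, pow_add]
    generalize 2 ^ (8 * t * Q) = B at *
    generalize 2 ^ t = A at *
    nlinarith

/-- exponent of the bound on the kernel base -/
def mexp (t j : ℕ) : ℕ :=
  3 * pp t (j + 1) + (t + 4 * (j + 2) + 24) + 3 + 2 * t * (8 * t * pp t (j + 2) + t + 1)

theorem budget (t j : ℕ) : mexp t j * (t * thr t j + 2) + (8 * t * pp t (j + 2) + t) +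
    2 * (t + 2 * (j + 2) + 16) + 2 ≤ 2 ^ (3 * pp t (j + 1)) := by
  have hge := pp_ge t j
  have hu := u_le (t := t) j
  have hA : pp t (j + 2) = 2 ^ pp t (j + 1) := rfl
  unfold mexp
  rw [hA]
  set P := pp t (j + 1)
  rw [show 3 * P = P + P + P by ring, pow_add, pow_add]
  have hsq := sq64_le_pow (n := P) (by omega)
  set A := 2 ^ P
  generalize t * thr t j + 2 = u at *
  have hPA : P ≤ A := Nat.lt_two_pow_self.le
  have htP : t ≤ P := by omega
  have h1 : P + P + P + (t + 4 * (j + 2) + 24) + 3 + 2 * t * (8 * t * A + t + 1) ≤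
      30 * P ^ 2 * A := by
    have a1 : t * t * A ≤ P * P * A := by gcongr
    have a2 : t * t ≤ P * P := by gcongr
    have a3 : P * P * 1 ≤ P * P * A := Nat.mul_le_mul_left _ Nat.one_le_two_pow
    nlinarith
  calc _ ≤ 30 * P ^ 2 * A * A + (8 * t * A + t) + 2 * (t + 2 * (j + 2) + 16) + 2 := by gcongr
    _ ≤ 64 * P ^ 2 * A * A := by
      have a1 : t * A ≤ P * A := by gcongr
      have a3 : P * P * A * 1 ≤ P * P * A * A := Nat.mul_le_mul_left _ Nat.one_le_two_pow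
      have a4 : P * 1 * (A * 1) ≤ P * P * (A * A) := by
        gcongr
        · omega
        · exact Nat.one_le_two_pow
      nlinarith
    _ ≤ A * A * A := by gcongr

theorem nat_le_two_pow (n : ℕ) : (n : ℝ) ≤ 2 ^ n := by
  exact_mod_cast (Nat.lt_two_pow_self (n := n)).le

theorem thr_cast (t k : ℕ) : (thr t k : ℝ) = 2 ^ (8 * t * pp t k) := by simp [thr]

theorem e_le (t j : ℕ) : ((t * thr t (j + 2) : ℕ) : ℝ) ≤ 2 ^ (8 * t * pp t (j + 2) + t) := by
  push_cast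
  rw [thr_cast, pow_add, mul_comm ((2 : ℝ) ^ (8 * t * pp t (j + 2)))]
  exact mul_le_mul_of_nonneg_right (nat_le_two_pow t) (by positivity)

theorem num_Y (t j : ℕ) :
    1 + 4 * ((2 ^ (3 * pp t (j + 1)) : ℕ) : ℝ) * 2 ^ (t + 4 * (j + 2) + 24) *
      (((t * thr t (j + 2) : ℕ) : ℝ) + 1) ^ (2 * t) ≤ 2 ^ mexp t j := by
  have h1 := e_le t j
  set e : ℝ := ((t * thr t (j + 2) : ℕ) : ℝ)
  set E := 8 * t * pp t (j + 2) + t with hE
  have he : 0 ≤ e := Nat.cast_nonneg _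
  have h2 : e + 1 ≤ 2 ^ (E + 1) := by
    rw [pow_succ]; linarith [one_le_pow₀ (M₀ := ℝ) (a := 2) (n := E) (by norm_num)]
  have h3 := pow_le_pow_left₀ (by positivity) h2 (2 * t)
  rw [← pow_mul, mul_comm (E + 1)] at h3
  rw [show mexp t j = (3 * pp t (j + 1) + (t + 4 * (j + 2) + 24) + 2 * t * (E + 1)) + 3 by
    rw [hE, mexp]; ring]
  set a := 3 * pp t (j + 1)
  set D := t + 4 * (j + 2) + 24
  push_cast
  have h4 := mul_le_mul_of_nonneg_left h3 (show (0 : ℝ) ≤ 4 * 2 ^ a * 2 ^ D by positivity)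
  rw [show (2 : ℝ) ^ (a + D + 2 * t * (E + 1) + 3) =
    2 * (4 * 2 ^ a * 2 ^ D * 2 ^ (2 * t * (E + 1))) by ring]
  have h5 : (1 : ℝ) ≤ 4 * 2 ^ a * 2 ^ D * 2 ^ (2 * t * (E + 1)) := by
    have := one_le_pow₀ (M₀ := ℝ) (a := 2) (n := a + D + 2 * t * (E + 1)) (by norm_num)
    rw [pow_add, pow_add] at this
    linarith
  linarith

theorem num_theta {t : ℕ} (ht : 1 ≤ t) (j : ℕ) :
    2 * (((t * thr t (j + 2) * mexp t j + (t + 2 * (j + 2) + 16) : ℕ) : ℝ) + 1) *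
      ((1 / 2) ^ (2 ^ (3 * pp t (j + 1))) * (1 + ((2 ^ (3 * pp t (j + 1)) : ℕ) : ℝ) *
        ((((t * thr t (j + 2) : ℕ) : ℝ) + 1) ^ t * 2 ^ (t + 4 * (j + 2) + 24) / (1 / 2))) ^
          (t * thr t j)) ≤ (1 / 2) ^ (t + 2 * (j + 2) + 16) := by
  have hY := num_Y t j
  have hb := budget t j
  have hE := e_le t j
  set R := t + 2 * (j + 2) + 16
  set E := 8 * t * pp t (j + 2) + t
  set mm := mexp t j
  set u := t * thr t j
  set e : ℝ := ((t * thr t (j + 2) : ℕ) : ℝ) with he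
  set s := 2 ^ (3 * pp t (j + 1))
  set d : ℝ := 2 ^ (t + 4 * (j + 2) + 24) with hd
  have he0 : 0 ≤ e := Nat.cast_nonneg _
  have hd0 : 0 < d := by positivity
  have hK : 1 + (s : ℝ) * ((e + 1) ^ t * d / (1 / 2)) ≤ 2 ^ mm := by
    refine le_trans ?_ hY
    have h1 : (e + 1) ^ t ≤ (e + 1) ^ (2 * t) := pow_le_pow_right₀ (by linarith) (by omega)
    have h2 := mul_le_mul_of_nonneg_left h1 (show (0 : ℝ) ≤ s * d by positivity)
    have h3 : 0 ≤ (s : ℝ) * d * (e + 1) ^ (2 * t) := by positivity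
    linarith
  have hK' : (1 + (s : ℝ) * ((e + 1) ^ t * d / (1 / 2))) ^ u ≤ 2 ^ (mm * u) := by
    rw [pow_mul (2 : ℝ) mm u]; exact pow_le_pow_left₀ (by positivity) hK u
  have hM : 2 * (((t * thr t (j + 2) * mm + R : ℕ) : ℝ) + 1) ≤ 2 ^ (E + mm + R + 2) := by
    push_cast
    rw [show (t : ℝ) * thr t (j + 2) = e by rw [he]; push_cast; ring]
    have h1 : e * mm ≤ 2 ^ E * 2 ^ mm :=
      mul_le_mul hE (nat_le_two_pow _) (Nat.cast_nonneg _) (by positivity)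
    have h2 : (R : ℝ) + 1 ≤ 2 ^ R := by exact_mod_cast Nat.lt_two_pow_self (n := R)
    have h3 : (2 : ℝ) ^ E * 2 ^ mm ≤ 2 ^ E * 2 ^ mm * 2 ^ R :=
      le_mul_of_one_le_right (by positivity) (one_le_pow₀ (by norm_num))
    have h4 : (2 : ℝ) ^ R ≤ 2 ^ E * 2 ^ mm * 2 ^ R :=
      le_mul_of_one_le_left (by positivity) (one_le_mul_of_one_le_of_one_le
        (one_le_pow₀ (by norm_num)) (one_le_pow₀ (by norm_num)))
    rw [show (2 : ℝ) ^ (E + mm + R + 2) = 4 * (2 ^ E * 2 ^ mm * 2 ^ R) by ring]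
    linarith
  calc _ ≤ 2 ^ (E + mm + R + 2) * ((1 / 2) ^ s * 2 ^ (mm * u)) :=
        mul_le_mul hM (mul_le_mul_of_nonneg_left hK' (by positivity)) (by positivity) (by positivity)
    _ = 2 ^ (E + mm + R + 2 + mm * u) * (1 / 2) ^ s := by ring
    _ ≤ (1 / 2) ^ R := by
      have hle : E + mm + R + 2 + mm * u + R ≤ s := by
        have : mm * (u + 2) = mm * u + 2 * mm := by ring
        omega
      refine (mul_le_mul_of_nonneg_left
        (pow_le_pow_of_le_one (by norm_num) (by norm_num) hle) (by positivity)).trans (le_of_eq ?_)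
      rw [pow_add (1 / 2 : ℝ) _ R, ← mul_assoc, ← mul_pow, show (2 : ℝ) * (1 / 2) = 1 by norm_num,
        one_pow, one_mul]

theorem num_pure {t : ℕ} (ht : 1 ≤ t) {j m v : ℕ} (hm : m ≤ j + 6)
    (hv : v ≤ (2 ^ (3 * pp t (j + 1)) - 1) * t) :
    ((v : ℝ) + 1) ^ t * (2 * (256 * (t : ℝ)) ^ t) * 2 ^ m / thr t (j + 1) ≤ 1 / 4 := by
  have hge := pp_ge t j
  set P := pp t (j + 1) with hP
  have hv' : (v : ℝ) + 1 ≤ 2 ^ (3 * P + t) := by
    have h1 : v + 1 ≤ 2 ^ (3 * P) * t := by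
      have h0 : 1 ≤ 2 ^ (3 * P) := Nat.one_le_two_pow
      generalize 2 ^ (3 * P) = B at *
      obtain ⟨c, rfl⟩ := Nat.exists_eq_add_of_le h0
      rw [Nat.add_sub_cancel_left] at hv
      nlinarith
    have h2 : v + 1 ≤ 2 ^ (3 * P + t) := by
      rw [pow_add]; exact h1.trans (Nat.mul_le_mul_left _ Nat.lt_two_pow_self.le)
    exact_mod_cast h2
  have hW : 256 * (t : ℝ) ≤ 2 ^ (8 + t) := by
    rw [pow_add]; linarith [nat_le_two_pow t]
  have h1 := pow_le_pow_left₀ (by positivity) hv' t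
  have h2 := pow_le_pow_left₀ (by positivity) hW t
  rw [← pow_mul] at h1 h2
  rw [div_le_iff₀ (by exact_mod_cast thr_pos t (j + 1)), thr_cast, ← hP]
  calc ((v : ℝ) + 1) ^ t * (2 * (256 * (t : ℝ)) ^ t) * 2 ^ m
      ≤ 2 ^ ((3 * P + t) * t) * (2 * 2 ^ ((8 + t) * t)) * 2 ^ m := by gcongr
    _ = 1 / 4 * 2 ^ ((3 * P + t) * t + (8 + t) * t + m + 3) := by ring
    _ ≤ 1 / 4 * 2 ^ (8 * t * P) := by
      refine mul_le_mul_of_nonneg_left (pow_le_pow_right₀ (by norm_num) ?_) (by norm_num)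
      nlinarith

end Vale.Agent.P034
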